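import Vale.Agent.P082.Iface

/-!
# P082: covariance from the witness and the limit of its powers
-/

namespace Vale.Agent.P082.Cov

open scoped InnerProductSpace
open Finset Filter

universe u

variable {H : Type u} [NormedAddCommGroup H] [InnerProductSpace ℂ H] [CompleteSpace H]
variable {M : VonNeumannAlgebra H}

/-- The weights of the witness. -/
noncomputable def wt (J j : ℕ) : ℝ := (1 - (j : ℝ) / J) ^ 2 / j

theorem wt_nonneg (J j : ℕ) : 0 ≤ wt J j := div_nonneg (sq_nonneg _) (Nat.cast_nonneg _)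

theorem exists_wt_sum_ge (X : ℝ) : ∃ J : ℕ, 0 < J ∧ X ≤ ∑ j ∈ Icc 1 J, wt J j := by
  obtain ⟨K, hK⟩ :=
    (Real.tendsto_sum_range_one_div_nat_succ_atTop.eventually_ge_atTop (4 * X)).exists
  refine ⟨2 * (K + 1), by omega, ?_⟩
  have h1 : ∑ j ∈ Icc 1 K, wt (2 * (K + 1)) j ≤ ∑ j ∈ Icc 1 (2 * (K + 1)), wt (2 * (K + 1)) j :=
    sum_le_sum_of_subset_of_nonneg (Icc_subset_Icc_right (by omega)) fun j _ _ => wt_nonneg _ j
  refine le_trans ?_ h1
  have h2 : ∑ i ∈ range K, (1 / ((i : ℝ) + 1)) / 4 ≤ ∑ j ∈ Icc 1 K, wt (2 * (K + 1)) j := by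
    rw [← Finset.Ico_add_one_right_eq_Icc, sum_Ico_eq_sum_range, Nat.add_sub_cancel]
    refine sum_le_sum fun i hi => ?_
    rw [mem_range] at hi
    have hi' : (i : ℝ) + 1 ≤ K + 1 := by exact_mod_cast Nat.succ_le_succ hi.le
    have hd : ((1 + i : ℕ) : ℝ) / ((2 * (K + 1) : ℕ) : ℝ) ≤ 1 / 2 := by
      push_cast
      rw [div_le_div_iff₀ (by positivity) two_pos]
      linarith
    rw [wt, show (1 / ((i : ℝ) + 1)) / 4 = (1 / 2) ^ 2 / ((1 + i : ℕ) : ℝ) by push_cast; ring]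
    gcongr
    linarith
  rw [← sum_div] at h2
  linarith

theorem avg_sub {α E : Type*} [Fintype α] [AddCommGroup E] [Module ℂ E] (f g : α → E) :
    avg f - avg g = avg fun a => f a - g a := by
  simp [avg, sum_sub_distrib, smul_sub]

theorem avg_sum {α β E : Type*} [Fintype α] [AddCommGroup E] [Module ℂ E] (s : Finset β)
    (c : β → ℂ) (f : β → α → E) :
    ∑ j ∈ s, c j • avg (f j) = avg fun a => ∑ j ∈ s, c j • f j a := by
  simp only [avg, smul_sum, smul_comm (c _) ((Fintype.card α : ℂ)⁻¹)]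
  rw [sum_comm]

theorem norm_avg_le {α E : Type*} [Fintype α] [Nonempty α] [NormedAddCommGroup E] [NormedSpace ℂ E]
    {f : α → E} {B : ℝ} (h : ∀ a, ‖f a‖ ≤ B) : ‖avg f‖ ≤ B := by
  rw [avg, norm_smul, norm_inv, Complex.norm_natCast, inv_mul_le_iff₀ (by positivity)]
  refine (norm_sum_le_of_le _ fun a _ => h a).trans ?_
  simp

theorem word_mem (W : Walk M) {n : ℕ} (y : Fin n → Fin W.size) : W.word y ∈ unitary (Alg M) :=
  Submonoid.list_prod_mem _ fun x hx => by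
    obtain ⟨i, rfl⟩ := List.mem_ofFn.1 hx
    exact W.unit _

theorem letter_mem (W : Walk M) {m n : ℕ} (r : Fin m → Fin n → Fin W.size) (l : Lab m) :
    W.letter r l ∈ unitary (Alg M) := by
  unfold Walk.letter
  split
  · exact word_mem W _
  · exact Unitary.star_mem (word_mem W _)

theorem star_randS (W : Walk M) {m n : ℕ}
    (ω : (Fin m → Fin n → Fin W.size) × (Fin m → Fin 4)) : star (W.randS ω) = W.randS ω := by
  simp only [Walk.randS, star_smul, star_sum, star_inv₀, Complex.star_def, Complex.conj_ofReal]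
  congr 1
  refine (Fintype.sum_equiv ((Equiv.refl (Fin m)).prodCongr Equiv.boolNot) _ _ ?_).symm
  rintro ⟨i, b⟩
  cases b <;> simp [phase, Walk.letter]

theorem randU_mem (W : Walk M) {m n : ℕ} {z : Alg M} (hz : z ∈ unitary (Alg M)) (t : ℝ)
    (ω : (Fin m → Fin n → Fin W.size) × (Fin m → Fin 4)) :
    W.randU z t ω ∈ unitary (Alg M) := by
  refine mul_mem hz ?_
  have h : (t : ℂ) • W.randS ω ∈ selfAdjoint (Alg M) := by
    rw [selfAdjoint.mem_iff, star_smul, star_randS, Complex.star_def, Complex.conj_ofReal]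
  rw [mul_smul]
  exact (selfAdjoint.expUnitary ⟨_, h⟩).2

theorem norm_ev_star_sq (ξ : H) (a : Alg M) :
    ((‖ev ξ (star a)‖ ^ 2 : ℝ) : ℂ) = tr ξ (a * star a) := by
  rw [tr, ev, ev]
  show _ = ⟪ξ, (a : H →L[ℂ] H) ((star (a : H →L[ℂ] H)) ξ)⟫_ℂ
  rw [← ContinuousLinearMap.adjoint_inner_left, ← ContinuousLinearMap.star_eq_adjoint,
    inner_self_eq_norm_sq_to_K]
  push_cast
  rfl

theorem norm_ev_unitary_mul {ξ : H} {u : Alg M} (hu : u ∈ unitary (Alg M)) (a : Alg M) :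
    ‖ev ξ (u * a)‖ = ‖ev ξ a‖ := by
  have h : (u : H →L[ℂ] H) ∈ unitary (H →L[ℂ] H) := by
    rw [Unitary.mem_iff] at hu ⊢
    exact ⟨congrArg Subtype.val hu.1, congrArg Subtype.val hu.2⟩
  exact Unitary.norm_map (⟨_, h⟩ : unitary (H →L[ℂ] H)) ((a : H →L[ℂ] H) ξ)

theorem stmtCov_of (hWit : Iface.StmtWit.{u}) (hLim : Iface.StmtLim.{u}) :
    Iface.StmtCov.{u} := by
  intro C T ε hC hT hε
  obtain ⟨J, hJ, hS⟩ := exists_wt_sum_ge (8 * Real.pi * C ^ 2 / ε ^ 2 + 1)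
  set ε' : ℝ := ε ^ 2 / (8 * (C + 1)) with hε'
  have hε'0 : 0 < ε' := by positivity
  obtain ⟨δ, t, hδ, hL⟩ := hLim C T J ε' hC hT hε'0
  refine ⟨δ, hδ, ?_⟩
  intro H _ _ _ M W ξ z G hξ hz hmix hG
  obtain ⟨m, n, -, hmn⟩ := hL H M W ξ z G hξ hz hmix hG
  set a := G z * star z with ha
  set b := G 1 with hb
  set η := star (a - b) with hη
  set S := ∑ j ∈ Icc 1 J, wt J j with hS'
  have : Nonempty ((Fin m → Fin n → Fin W.size) × (Fin m → Fin 4)) :=
    ⟨(fun _ _ => ⟨0, W.size_pos⟩, fun _ => 0)⟩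
  let X : ℕ → (Fin m → Fin n → Fin W.size) × (Fin m → Fin 4) → ℂ := fun j ω =>
    tr ξ (G (W.randU z t ω ^ j) * star (W.randU z t ω ^ j) * η)
  let Y : ℕ → (Fin m → Fin n → Fin W.size) × (Fin m → Fin 4) → ℂ := fun j ω =>
    tr ξ (G (star (W.randU z t ω) ^ j) * W.randU z t ω ^ j * η)
  have hW : ‖∑ j ∈ Icc 1 J, (wt J j : ℂ) • (avg (X j) - avg (Y j))‖
      ≤ 2 * Real.pi * C * ‖η‖ := by
    simp only [avg_sub]
    rw [avg_sum]
    refine norm_avg_le fun ω => ?_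
    simp only [smul_eq_mul]
    exact hWit H M ξ C G (W.randU z t ω) η J hξ hG.bound (randU_mem W hz t ω) hJ
  set d := tr ξ (a * η) - tr ξ (b * η) with hd
  have hdd : ‖∑ j ∈ Icc 1 J, (wt J j : ℂ) • (avg (X j) - avg (Y j)) - (S : ℂ) • d‖
      ≤ S * (2 * ε' * ‖η‖) := by
    rw [hS', Complex.ofReal_sum, sum_smul, ← sum_sub_distrib, sum_mul]
    refine norm_sum_le_of_le _ fun j hj => ?_
    obtain ⟨h1, h2⟩ := hmn j hj η
    rw [← smul_sub, norm_smul, Complex.norm_real, Real.norm_of_nonneg (wt_nonneg _ _)]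
    refine mul_le_mul_of_nonneg_left ?_ (wt_nonneg _ _)
    rw [hd, show avg (X j) - avg (Y j) - (tr ξ (a * η) - tr ξ (b * η))
      = (avg (X j) - tr ξ (a * η)) - (avg (Y j) - tr ξ (b * η)) by ring]
    refine (norm_sub_le _ _).trans ?_
    linarith
  set x := ‖ev ξ (a - b)‖ with hx
  have hd2 : d = ((x ^ 2 : ℝ) : ℂ) := by
    rw [hd, hx, ← hξ.star_norm, norm_ev_star_sq, hη]
    simp only [tr, ev, sub_mul, AddSubgroupClass.coe_sub, sub_apply, inner_sub_right]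
  have hS0 : 0 ≤ S := sum_nonneg fun j _ => wt_nonneg J j
  have hηC : ‖η‖ ≤ 2 * C := by
    rw [hη, norm_star]
    refine (norm_sub_le _ _).trans ?_
    have hu : ∀ u ∈ unitary (Alg M), ‖G u‖ ≤ C := fun u hu => by
      refine (hG.bound u).trans ?_
      refine mul_le_of_le_one_right hC ?_
      rcases subsingleton_or_nontrivial (Alg M) with h | h
      · rw [Subsingleton.elim u 0, norm_zero]; exact zero_le_one
      · exact (CStarRing.norm_of_mem_unitary hu).le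
    have h1 : ‖a‖ ≤ C := by
      rw [ha, CStarRing.norm_mul_mem_unitary _ (Unitary.star_mem hz)]
      exact hu z hz
    have h2 : ‖b‖ ≤ C := hu 1 (one_mem _)
    linarith
  have key : S * x ^ 2 ≤ (2 * Real.pi * C + S * (2 * ε')) * (2 * C) := by
    have h := norm_le_norm_add_norm_sub' ((S : ℂ) • d)
      (∑ j ∈ Icc 1 J, (wt J j : ℂ) • (avg (X j) - avg (Y j)))
    rw [norm_sub_rev] at hdd
    have hn : ‖(S : ℂ) • d‖ = S * x ^ 2 := by
      rw [norm_smul, hd2, Complex.norm_real, Complex.norm_real, Real.norm_of_nonneg hS0,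
        Real.norm_of_nonneg (sq_nonneg x)]
    rw [hn] at h
    calc S * x ^ 2 ≤ (2 * Real.pi * C + S * (2 * ε')) * ‖η‖ := by linarith
      _ ≤ _ := by gcongr
  have hgoal : ‖ev ξ (G z - G 1 * z)‖ = x := by
    rw [show G z - G 1 * z = (a - b) * z by
        rw [sub_mul, ha, hb, mul_assoc, Unitary.star_mul_self_of_mem hz, mul_one],
      ← hξ.star_norm, star_mul, norm_ev_unitary_mul (Unitary.star_mem hz), hξ.star_norm]
  rw [hgoal]
  have hε'C : 4 * C * ε' ≤ ε ^ 2 / 2 := by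
    rw [hε', mul_div_assoc', div_le_iff₀ (by positivity)]
    nlinarith [sq_nonneg ε]
  have hpi : 4 * Real.pi * C ^ 2 ≤ S * (ε ^ 2 / 2) := by
    have h8 : 8 * Real.pi * C ^ 2 / ε ^ 2 ≤ S := by linarith
    rw [div_le_iff₀ (by positivity)] at h8
    linarith
  have hS1 : 1 ≤ S := le_trans (by
    have : 0 ≤ 8 * Real.pi * C ^ 2 / ε ^ 2 := by positivity
    linarith) hS
  have hx2 : x ^ 2 ≤ ε ^ 2 := by
    refine le_of_mul_le_mul_left ?_ (zero_lt_one.trans_le hS1)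
    nlinarith [mul_le_mul_of_nonneg_left hε'C hS0]
  exact (sq_le_sq₀ (norm_nonneg _) hε.le).1 hx2

end Vale.Agent.P082.Cov
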