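import Vale.Agent.P082.Iface

/-!
# P082: from a covariant average to vanishing cohomology
-/

namespace Vale.Agent.P082

universe u v

variable {H : Type u} [NormedAddCommGroup H] [InnerProductSpace ℂ H] [CompleteSpace H]
variable {M : VonNeumannAlgebra H}

theorem contractNth_snoc {n : ℕ} (x : Fin (n + 1) → Alg M) (u : Alg M) (j : Fin n) :
    Fin.contractNth j.castSucc.castSucc (· * ·) (Fin.snoc x u : Fin (n + 2) → Alg M) =
      (Fin.snoc (Fin.contractNth j.castSucc (· * ·) x) u : Fin (n + 1) → Alg M) := by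
  funext i
  induction i using Fin.lastCases with
  | last =>
    rw [Fin.snoc_last, Fin.contractNth_apply_of_gt _ _ _ _ (by simp [Fin.val_last])]
    simp [Fin.succ_last]
  | cast i =>
    rw [Fin.snoc_castSucc]
    rcases lt_trichotomy (i : ℕ) j with h | h | h
    · rw [Fin.contractNth_apply_of_lt _ _ _ _ (by simpa using h),
        Fin.contractNth_apply_of_lt _ _ _ _ (by simpa using h), Fin.snoc_castSucc]
    · rw [Fin.contractNth_apply_of_eq _ _ _ _ (by simpa using h),
        Fin.contractNth_apply_of_eq _ _ _ _ (by simpa using h), Fin.snoc_castSucc,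
        Fin.succ_castSucc, Fin.snoc_castSucc]
    · rw [Fin.contractNth_apply_of_gt _ _ _ _ (by simpa using h),
        Fin.contractNth_apply_of_gt _ _ _ _ (by simpa using h),
        Fin.succ_castSucc, Fin.snoc_castSucc]

theorem contractNth_last_snoc {n : ℕ} (x : Fin (n + 1) → Alg M) (u : Alg M) :
    Fin.contractNth (Fin.last n).castSucc (· * ·) (Fin.snoc x u : Fin (n + 2) → Alg M) =
      (Fin.snoc (Fin.init x) (x (Fin.last n) * u) : Fin (n + 1) → Alg M) := by
  funext i
  induction i using Fin.lastCases with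
  | last =>
    rw [Fin.snoc_last, Fin.contractNth_apply_of_eq _ _ _ _ (by simp), Fin.succ_last,
      Fin.snoc_castSucc, Fin.snoc_last]
  | cast i =>
    rw [Fin.snoc_castSucc, Fin.contractNth_apply_of_lt _ _ _ _ (by simp), Fin.snoc_castSucc]
    rfl

theorem tail_snoc {n : ℕ} (x : Fin (n + 1) → Alg M) (u : Alg M) :
    Fin.tail (Fin.snoc x u : Fin (n + 2) → Alg M) =
      (Fin.snoc (Fin.tail x) u : Fin (n + 1) → Alg M) := by
  funext i
  induction i using Fin.lastCases with
  | last => rw [Fin.snoc_last, Fin.tail, Fin.succ_last, Fin.snoc_last]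
  | cast i => rw [Fin.snoc_castSucc, Fin.tail, Fin.succ_castSucc, Fin.snoc_castSucc]; rfl

theorem hochDiff_smul {k : ℕ} (c : ℂ) (g : Cochain M k) (x : Fin (k + 1) → Alg M) :
    hochDiff (c • g) x = c • hochDiff g x := by
  simp only [hochDiff, smul_apply, mul_smul_comm, smul_mul_assoc, smul_add, Finset.smul_sum,
    smul_smul, mul_comm]

/-- A covariant average turns every cocycle into a coboundary. -/
theorem vanishes_of_average (Φ : (Alg M →L[ℂ] Alg M) →L[ℂ] Alg M)
    (hl : ∀ c φ, Φ ((ContinuousLinearMap.mul ℂ (Alg M) c).comp φ) = c * Φ φ)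
    (hr : ∀ v φ, Φ (φ.comp (ContinuousLinearMap.mul ℂ (Alg M) v)) = Φ φ * v)
    (hfix : ∀ c, Φ (ContinuousLinearMap.mul ℂ (Alg M) c) = c) (n : ℕ) : Vanishes M n := by
  intro f hf
  refine ⟨(-1 : ℂ) ^ (n + 1) • Φ.compContinuousMultilinearMap f.curryRight, fun x => ?_⟩
  set F := f.curryRight with hF
  have hFa : ∀ (y : Fin n → Alg M) u, F y u = f (Fin.snoc y u) := fun y u => rfl
  have key : (ContinuousLinearMap.mul ℂ (Alg M) (x 0)).comp (F (Fin.tail x)) +
      ((∑ j : Fin n, (-1 : ℂ) ^ (j.val + 1) • F (Fin.contractNth j.castSucc (· * ·) x)) +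
        (-1 : ℂ) ^ (n + 1) •
          (F (Fin.init x)).comp (ContinuousLinearMap.mul ℂ (Alg M) (x (Fin.last n)))) +
      (-1 : ℂ) ^ (n + 1 + 1) • ContinuousLinearMap.mul ℂ (Alg M) (f x) = 0 := by
    ext1 u
    have h := hf (Fin.snoc x u)
    rw [hochDiff, Fin.sum_univ_castSucc, contractNth_last_snoc, tail_snoc] at h
    simp only [contractNth_snoc, Fin.init_snoc, Fin.snoc_last, Fin.val_castSucc, Fin.val_last] at h
    rw [← Fin.castSucc_zero, Fin.snoc_castSucc] at h
    simpa [hFa] using h
  have h := congrArg Φ key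
  simp only [map_add, map_sum, map_smul, hl, hr, hfix, map_zero] at h
  have hd : hochDiff (Φ.compContinuousMultilinearMap F) x +
      (-1 : ℂ) ^ (n + 1 + 1) • f x = 0 := by
    rw [hochDiff]
    simpa [add_assoc] using h
  rw [hochDiff_smul, eq_neg_of_add_eq_zero_left hd, smul_neg, smul_smul, ← pow_add,
    show n + 1 + (n + 1 + 1) = 2 * (n + 1) + 1 by omega, pow_succ, pow_mul]
  simp

/-- The cohomology vanishes once the average exists. -/
theorem stmtMain (hPhi : Iface.StmtPhi.{v}) : Iface.StmtMain.{v} := by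
  intro H _ _ _ M hM hU n
  obtain ⟨Φ, hl, hr, hfix⟩ := hPhi H M hM hU
  exact vanishes_of_average Φ hl hr hfix n

end Vale.Agent.P082
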