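import Vale.Agent.P082.Iface

/-!
# P082: the map `Φ` from covariance at finitely many anticommuting unitaries
-/

namespace Vale.Agent.P082.Phi

open scoped InnerProductSpace Topology
open Filter

universe u

variable {H : Type u} [NormedAddCommGroup H] [InnerProductSpace ℂ H] [CompleteSpace H]
variable {M : VonNeumannAlgebra H}

theorem alg_ext {a b : Alg M}
    (h : ∀ η ζ, ⟪η, (a : H →L[ℂ] H) ζ⟫_ℂ = ⟪η, (b : H →L[ℂ] H) ζ⟫_ℂ) : a = b :=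
  Subtype.ext (ContinuousLinearMap.ext fun ζ => ext_inner_left ℂ fun η => h η ζ)

/-- A weak limit of a bounded family in the algebra along an ultrafilter. -/
theorem exists_wlim {ι : Type*} (U : Ultrafilter ι) (f : ι → Alg M) {B : ℝ} (hB : 0 ≤ B)
    (hf : ∀ i, ‖f i‖ ≤ B) :
    ∃ x : Alg M, ‖x‖ ≤ B ∧ ∀ η ζ : H,
      Tendsto (fun i => ⟪η, (f i : H →L[ℂ] H) ζ⟫_ℂ) U (𝓝 ⟪η, (x : H →L[ℂ] H) ζ⟫_ℂ) := by
  have hb : ∀ η ζ i, ‖⟪η, (f i : H →L[ℂ] H) ζ⟫_ℂ‖ ≤ B * ‖η‖ * ‖ζ‖ := fun η ζ i =>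
    (norm_inner_le_norm _ _).trans <| by
      calc ‖η‖ * ‖(f i : H →L[ℂ] H) ζ‖ ≤ ‖η‖ * (B * ‖ζ‖) := mul_le_mul_of_nonneg_left
            (((f i : H →L[ℂ] H).le_opNorm ζ).trans
              (mul_le_mul_of_nonneg_right (hf i) (norm_nonneg ζ))) (norm_nonneg η)
        _ = _ := by ring
  have hl : ∀ η ζ, ∃ z ∈ Metric.closedBall (0 : ℂ) (B * ‖η‖ * ‖ζ‖),
      Tendsto (fun i => ⟪η, (f i : H →L[ℂ] H) ζ⟫_ℂ) U (𝓝 z) := fun η ζ => by
    refine (isCompact_closedBall (0 : ℂ) _).ultrafilter_le_nhds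
      (U.map fun i => ⟪η, (f i : H →L[ℂ] H) ζ⟫_ℂ) ?_
    rw [le_principal_iff]
    exact Filter.mem_map.2
      (Eventually.of_forall (f := (U : Filter ι)) fun i => mem_closedBall_zero_iff.2 (hb η ζ i))
  choose L hLb hL using hl
  let F : H →L⋆[ℂ] H →L[ℂ] ℂ :=
    LinearMap.mkContinuous₂
      (LinearMap.mk₂'ₛₗ (starRingEnd ℂ) (RingHom.id ℂ) L
        (fun η η' ζ => tendsto_nhds_unique (hL _ _)
          (((hL η ζ).add (hL η' ζ)).congr fun i => (inner_add_left _ _ _).symm))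
        (fun c η ζ => tendsto_nhds_unique (hL _ _)
          (((hL η ζ).const_mul (starRingEnd ℂ c)).congr fun i => (inner_smul_left _ _ _).symm))
        (fun η ζ ζ' => tendsto_nhds_unique (hL _ _)
          (((hL η ζ).add (hL η ζ')).congr fun i => by rw [map_add, inner_add_right]))
        (fun c η ζ => tendsto_nhds_unique (hL _ _)
          (((hL η ζ).const_mul c).congr fun i => by
            rw [map_smul, inner_smul_right])))
      B fun η ζ => mem_closedBall_zero_iff.1 (hLb η ζ)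
  set T : H →L[ℂ] H := (InnerProductSpace.continuousLinearMapOfBilin F).adjoint with hT
  have hTL : ∀ η ζ, ⟪η, T ζ⟫_ℂ = L η ζ := fun η ζ => by
    rw [hT, ContinuousLinearMap.adjoint_inner_right,
      InnerProductSpace.continuousLinearMapOfBilin_apply]
    rfl
  have hmem : T ∈ M := by
    show T ∈ (M : Set (H →L[ℂ] H))
    rw [← VonNeumannAlgebra.centralizer_centralizer M]
    intro y hy
    refine ContinuousLinearMap.ext fun ζ => ext_inner_left ℂ fun η => ?_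
    rw [mul_apply_eq_comp, mul_apply_eq_comp, ← ContinuousLinearMap.adjoint_inner_left, hTL, hTL]
    refine tendsto_nhds_unique (hL _ _) ((hL η (y ζ)).congr fun i => ?_)
    rw [ContinuousLinearMap.adjoint_inner_left]
    exact congrArg (fun S : H →L[ℂ] H => ⟪η, S ζ⟫_ℂ) (hy (f i).1 (f i).2)
  refine ⟨⟨T, hmem⟩, ?_, fun η ζ => ?_⟩
  · show ‖T‖ ≤ B
    refine ContinuousLinearMap.opNorm_le_bound _ hB fun ζ => ?_
    rcases eq_or_ne (T ζ) 0 with h | h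
    · rw [h, norm_zero]; positivity
    refine le_of_mul_le_mul_left ?_ (norm_pos_iff.2 h)
    have h2 := mem_closedBall_zero_iff.1 (hLb (T ζ) ζ)
    rw [← hTL, inner_self_eq_norm_sq_to_K, norm_pow, RCLike.norm_ofReal, abs_norm] at h2
    nlinarith
  · show Tendsto _ _ (𝓝 ⟪η, T ζ⟫_ℂ)
    rw [hTL]
    exact hL η ζ

/-- A pair of anticommuting unitaries. -/
abbrev Pr (M : VonNeumannAlgebra H) :=
  {p : Alg M × Alg M //
    p.1 ∈ unitary (Alg M) ∧ p.2 ∈ unitary (Alg M) ∧ p.2 * p.1 * star p.2 = -p.1}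

/-- A subspace closed under products is everything if it contains `1` and the anticommuting
unitaries. -/
theorem mem_of_pairs {e : Fin 2 → Fin 2 → Alg M} (he : IsUnits M e) (Z : Submodule ℂ (Alg M))
    (h1 : (1 : Alg M) ∈ Z) (hmul : ∀ a ∈ Z, ∀ b ∈ Z, a * b ∈ Z)
    (hp : ∀ p : Pr M, p.1.1 ∈ Z) (x : Alg M) : x ∈ Z := by
  set z₁ : Alg M := e 0 0 - e 1 1 with hz₁
  set z₂ : Alg M := e 0 1 + e 1 0 with hz₂
  have hsum : e 0 0 + e 1 1 = 1 := by rw [← he.sum, Fin.sum_univ_two]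
  have hs₁ : star z₁ = z₁ := by simp [hz₁, he.star_eq]
  have hs₂ : star z₂ = z₂ := by simp [hz₂, he.star_eq, add_comm]
  have h₁₁ : z₁ * z₁ = 1 := by simp [hz₁, mul_sub, sub_mul, he.mul, hsum]
  have h₂₂ : z₂ * z₂ = 1 := by simp [hz₂, mul_add, add_mul, he.mul, ← hsum, add_comm]
  have h₂₁₂ : z₂ * z₁ * z₂ = -z₁ := by
    simp [hz₁, hz₂, mul_sub, sub_mul, mul_add, add_mul, he.mul]
    abel
  have h₁₂₁ : z₁ * z₂ * z₁ = -z₂ := by
    simp [hz₁, hz₂, mul_sub, sub_mul, mul_add, add_mul, he.mul]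
    abel
  have hu₁ : z₁ ∈ unitary (Alg M) := Unitary.mem_iff.2 ⟨by rw [hs₁, h₁₁], by rw [hs₁, h₁₁]⟩
  have hu₂ : z₂ ∈ unitary (Alg M) := Unitary.mem_iff.2 ⟨by rw [hs₂, h₂₂], by rw [hs₂, h₂₂]⟩
  have m₁ : z₁ ∈ Z := hp ⟨(z₁, z₂), hu₁, hu₂, by rw [hs₂]; exact h₂₁₂⟩
  have m₂ : z₂ ∈ Z := hp ⟨(z₂, z₁), hu₂, hu₁, by rw [hs₁]; exact h₁₂₁⟩
  have d0 : e 0 0 ∈ Z := by
    have : e 0 0 = (2 : ℂ)⁻¹ • ((1 : Alg M) + z₁) := by
      rw [hz₁, ← hsum]; module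
    rw [this]
    exact Z.smul_mem _ (Z.add_mem h1 m₁)
  have d1 : e 1 1 ∈ Z := by
    rw [show e 1 1 = 1 - e 0 0 by rw [← hsum]; abel]
    exact Z.sub_mem h1 d0
  have hab : ∀ a b, e a b ∈ Z := by
    intro a b
    fin_cases a <;> fin_cases b
    · exact d0
    · show e 0 1 ∈ Z
      rw [show e 0 1 = e 0 0 * z₂ by simp [hz₂, mul_add, he.mul]]
      exact hmul _ d0 _ m₂
    · show e 1 0 ∈ Z
      rw [show e 1 0 = e 1 1 * z₂ by simp [hz₂, mul_add, he.mul]]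
      exact hmul _ d1 _ m₂
    · exact d1
  let s : Set (Alg M) := Set.range fun p : Fin 2 × Fin 2 => e p.1 p.2
  let N := StarSubalgebra.centralizer ℂ s
  have hN : IsClosed (N : Set (Alg M)) := Set.isClosed_centralizer _
  have : IsClosed (N : Set (Alg M)) := hN
  have hunit : ∀ v : unitary N, ((v : N) : Alg M) ∈ Z := by
    intro v
    set w : Alg M := ((v : N) : Alg M) with hw
    have hwu : w ∈ unitary (Alg M) := Unitary.mem_iff.2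
      ⟨congrArg Subtype.val (Unitary.star_mul_self_of_mem v.2),
        congrArg Subtype.val (Unitary.mul_star_self_of_mem v.2)⟩
    have hcomm : ∀ a b, e a b * w = w * e a b := fun a b =>
      (((StarSubalgebra.mem_centralizer_iff (R := ℂ) (s := s)).1 (v : N).2) _ ⟨(a, b), rfl⟩).1
    have hc₂ : z₂ * w = w * z₂ := by simp only [hz₂, add_mul, mul_add, hcomm]
    have hz : z₁ * w ∈ Z := hp ⟨(z₁ * w, z₂), mul_mem hu₁ hwu, hu₂, by
      show z₂ * (z₁ * w) * star z₂ = -(z₁ * w)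
      rw [hs₂, ← mul_assoc, mul_assoc _ w, ← hc₂, ← mul_assoc, h₂₁₂, neg_mul]⟩
    rw [show w = z₁ * (z₁ * w) by rw [← mul_assoc, h₁₁, one_mul]]
    exact hmul _ m₁ _ hz
  have hNZ : ∀ v : N, (v : Alg M) ∈ Z := fun v => by
    obtain ⟨u, c, hv, -⟩ := CStarAlgebra.exists_sum_four_unitary v
    rw [hv, AddSubmonoidClass.coe_finsetSum]
    exact sum_mem fun i _ => Z.smul_mem _ (hunit (u i))
  let v : Fin 2 → Fin 2 → Alg M := fun a b => ∑ c, e c a * x * e b c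
  have hvN : ∀ a b, v a b ∈ N := by
    intro a b
    rw [StarSubalgebra.mem_centralizer_iff]
    rintro g ⟨⟨i, j⟩, rfl⟩
    have key : ∀ i j, e i j * v a b = v a b * e i j := by
      intro i j
      simp only [v, Finset.mul_sum, Finset.sum_mul, ← mul_assoc, he.mul]
      simp only [mul_assoc, he.mul]
      simp [ite_mul, mul_ite]
    exact ⟨key i j, by rw [he.star_eq]; exact key j i⟩
  have hx : x = ∑ a, ∑ b, e a b * v a b := by
    simp only [v, Finset.mul_sum, ← mul_assoc, he.mul]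
    simp only [ite_mul, zero_mul, Finset.sum_ite_eq, Finset.mem_univ, if_true]
    simp_rw [← Finset.mul_sum, he.sum, mul_one, ← Finset.sum_mul, he.sum, one_mul]
  rw [hx]
  exact sum_mem fun a _ => sum_mem fun b _ => hmul _ (hab a b) _ (hNZ ⟨_, hvN a b⟩)

theorem mix_mono {W : Walk M} {ξ : H} {z : Alg M} {δ δ' : ℝ} (h : Mix W ξ z δ) (hd : δ ≤ δ') :
    Mix W ξ z δ' :=
  ⟨h.step_z, h.step_one, h.gap, h.decr, fun c hc =>
    (h.small c hc).mono fun _ hn => hn.mono fun _ hk => hk.trans hd⟩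

theorem isTrVec_normalize {ξ : H} (hξ : ∀ y ∈ M, ‖star y ξ‖ = ‖y ξ‖) (h0 : ξ ≠ 0) :
    IsTrVec M ((‖ξ‖⁻¹ : ℂ) • ξ) := by
  refine ⟨by simp [norm_smul, h0], fun a => ?_⟩
  simp only [ev, map_smul, norm_smul, StarMemClass.coe_star]
  rw [hξ _ a.2]

theorem comp_mul_step (Φ : (Alg M →L[ℂ] Alg M) →ₗ[ℂ] Alg M) {φ : Alg M →L[ℂ] Alg M} {a b : Alg M}
    (ha : Φ (φ.comp (ContinuousLinearMap.mul ℂ (Alg M) a)) = Φ φ * a)
    (hb : Φ ((φ.comp (ContinuousLinearMap.mul ℂ (Alg M) a)).comp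
      (ContinuousLinearMap.mul ℂ (Alg M) b)) =
        Φ (φ.comp (ContinuousLinearMap.mul ℂ (Alg M) a)) * b) :
    Φ (φ.comp (ContinuousLinearMap.mul ℂ (Alg M) (a * b))) = Φ φ * (a * b) := by
  have h : φ.comp (ContinuousLinearMap.mul ℂ (Alg M) (a * b)) =
      (φ.comp (ContinuousLinearMap.mul ℂ (Alg M) a)).comp
        (ContinuousLinearMap.mul ℂ (Alg M) b) :=
    ContinuousLinearMap.ext fun x => congrArg φ (mul_assoc a b x)
  rw [h, hb, ha, mul_assoc]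

/-- The relation `Φ (φ ∘ L_v) = Φ φ * v` passes from the anticommuting unitaries to all `v`. -/
theorem comp_mul_all {e : Fin 2 → Fin 2 → Alg M} (he : IsUnits M e)
    (Φ : (Alg M →L[ℂ] Alg M) →ₗ[ℂ] Alg M)
    (hp : ∀ (p : Pr M) φ, Φ (φ.comp (ContinuousLinearMap.mul ℂ (Alg M) p.1.1)) = Φ φ * p.1.1)
    (v : Alg M) (φ : Alg M →L[ℂ] Alg M) :
    Φ (φ.comp (ContinuousLinearMap.mul ℂ (Alg M) v)) = Φ φ * v := by
  revert φ
  let Z : Submodule ℂ (Alg M) :=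
    { carrier := {v | ∀ φ, Φ (φ.comp (ContinuousLinearMap.mul ℂ (Alg M) v)) = Φ φ * v}
      zero_mem' := fun φ => by
        rw [(ContinuousLinearMap.mul ℂ (Alg M)).map_zero, ContinuousLinearMap.comp_zero,
          Φ.map_zero, mul_zero]
      add_mem' := fun {a b} ha hb φ => by
        rw [(ContinuousLinearMap.mul ℂ (Alg M)).map_add, ContinuousLinearMap.comp_add,
          Φ.map_add, ha φ, hb φ, mul_add]
      smul_mem' := fun c a ha φ => by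
        rw [(ContinuousLinearMap.mul ℂ (Alg M)).map_smul, ContinuousLinearMap.comp_smul,
          Φ.map_smul, ha φ, mul_smul_comm] }
  refine mem_of_pairs he Z ?_ ?_ hp v
  · intro φ
    rw [mul_one]
    exact congrArg Φ (ContinuousLinearMap.ext fun x => congrArg φ (one_mul x))
  · intro a ha b hb φ
    exact comp_mul_step Φ (ha φ) (hb _)

theorem tendsto_sub_mul {ι : Type*} {U : Filter ι} {x y : ι → Alg M} {X Y z : Alg M} {η ξ : H}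
    (hx : Tendsto (fun i => ⟪η, (x i : H →L[ℂ] H) ξ⟫_ℂ) U (𝓝 ⟪η, (X : H →L[ℂ] H) ξ⟫_ℂ))
    (hy : Tendsto (fun i => ⟪η, (y i : H →L[ℂ] H) ((z : H →L[ℂ] H) ξ)⟫_ℂ) U
      (𝓝 ⟪η, (Y : H →L[ℂ] H) ((z : H →L[ℂ] H) ξ)⟫_ℂ)) :
    Tendsto (fun i => ⟪η, ev ξ (x i - y i * z)⟫_ℂ) U (𝓝 ⟪η, ev ξ (X - Y * z)⟫_ℂ) := by
  simpa [ev, inner_sub_right] using hx.sub hy

theorem eq_zero_of_small {ι : Type*} (U : Ultrafilter ι) {d : ι → Alg M} {D : Alg M} {ξ : H}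
    (h : ∀ η, Tendsto (fun i => ⟪η, ev ξ (d i)⟫_ℂ) U (𝓝 ⟪η, ev ξ D⟫_ℂ))
    (hd : ∀ ε : ℝ, 0 < ε → ∀ᶠ i in (U : Filter ι), ‖ev ξ (d i)‖ ≤ ε) : ev ξ D = 0 := by
  refine ext_inner_left ℂ fun η => ?_
  rw [inner_zero_right]
  refine tendsto_nhds_unique (h η) (Metric.tendsto_nhds.2 fun ε hε => ?_)
  refine (hd (ε / (2 * (‖η‖ + 1))) (by positivity)).mono fun i hi => ?_
  rw [dist_zero_right]
  refine lt_of_le_of_lt (norm_inner_le_norm _ _) ?_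
  calc ‖η‖ * _ ≤ ‖η‖ * (ε / (2 * (‖η‖ + 1))) := mul_le_mul_of_nonneg_left hi (norm_nonneg η)
    _ < ε := by
      rw [mul_div_assoc', div_lt_iff₀ (by positivity)]
      nlinarith [norm_nonneg η]

theorem eq_zero_of_ev {D : Alg M} (hM : HasTracialVectors M)
    (key : ∀ ξ : H, IsTrVec M ξ → ev ξ D = 0) : D = 0 := by
  obtain ⟨S, hS, hsep⟩ := hM
  refine Subtype.ext (hsep _ D.2 fun ξ hξ => ?_)
  rcases eq_or_ne ξ 0 with h | h
  · rw [h, map_zero]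
  have h' := key _ (isTrVec_normalize (hS ξ hξ) h)
  rw [ev, map_smul, smul_eq_zero] at h'
  exact h'.resolve_left (by simp [h])

theorem comp_eval {φ ψ ψ' : Alg M →L[ℂ] Alg M} {z : Alg M}
    {G : (Alg M →L[ℂ] Alg M) →ₗ[ℂ] (Alg M →L[ℂ] Alg M)}
    (h1 : ψ = φ.comp (ContinuousLinearMap.mul ℂ (Alg M) z))
    (h2 : G (φ.comp (ContinuousLinearMap.mul ℂ (Alg M) z)) =
      ψ'.comp (ContinuousLinearMap.mul ℂ (Alg M) z)) : G ψ 1 = ψ' z := by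
  rw [h1, h2]
  exact congrArg ψ' (mul_one z)

theorem eventually_small (hCov : Iface.StmtCov.{u}) {φ : Alg M →L[ℂ] Alg M}
    {W : Finset (Pr M) × ℕ → Walk M}
    {G : Finset (Pr M) × ℕ → (Alg M →L[ℂ] Alg M) →ₗ[ℂ] (Alg M →L[ℂ] Alg M)}
    (hW : ∀ i (ξ : H), IsTrVec M ξ → ∀ p ∈ i.1,
      Mix (W i) ξ p.1.1 (2 / √((i.2 + 1 : ℕ) : ℝ)))
    (hG2 : ∀ i φ a, G i φ a = avg fun k => G i φ (a * (W i).g k) * star ((W i).g k))
    {C : ℝ} (hC : 0 ≤ C) {T : ℝ → ℝ} (hT0 : ∀ s, 0 ≤ T s) {ξ : H} (hξ : IsTrVec M ξ)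
    (hb : ∀ i a, ‖G i φ a‖ ≤ C * ‖a‖) (hc' : ∀ i, ContAt ξ T (G i φ))
    (p : Pr M) {ε : ℝ} (hε : 0 < ε) :
    ∀ᶠ i in (atTop : Filter (Finset (Pr M) × ℕ)),
      ‖ev ξ (G i φ p.1.1 - G i φ 1 * p.1.1)‖ ≤ ε := by
  obtain ⟨δ, hδ, hc⟩ := hCov C T ε hC hT0 hε
  obtain ⟨K, hK⟩ := exists_nat_ge ((2 / δ) ^ 2)
  refine (eventually_ge_atTop ({p}, K)).mono fun i hi => ?_
  refine hc H M (W i) ξ p.1.1 (G i φ) hξ p.2.1 (fun ζ hζ => ?_) ⟨hb i, hc' i, hG2 i φ⟩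
  refine mix_mono (hW i ζ hζ p (Finset.singleton_subset_iff.1 hi.1)) ?_
  rw [div_le_iff₀ (by positivity), ← div_le_iff₀' hδ]
  refine Real.le_sqrt_of_sq_le (hK.trans ?_)
  exact_mod_cast le_trans (show K ≤ i.2 from hi.2) (Nat.le_succ _)

/-- Covariance at one anticommuting unitary. -/
theorem pair_case (hCov : Iface.StmtCov.{u}) (hM : HasTracialVectors M) {C : ℝ} (hC : 0 ≤ C)
    {P : (Alg M →L[ℂ] Alg M) →ₗ[ℂ] (Alg M →L[ℂ] Alg M)}
    {W : Finset (Pr M) × ℕ → Walk M}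
    {G : Finset (Pr M) × ℕ → (Alg M →L[ℂ] Alg M) →ₗ[ℂ] (Alg M →L[ℂ] Alg M)}
    (hW : ∀ i (ξ : H), IsTrVec M ξ → ∀ p ∈ i.1,
      Mix (W i) ξ p.1.1 (2 / √((i.2 + 1 : ℕ) : ℝ)))
    (hG1 : ∀ i φ a, ‖G i φ a‖ ≤ ‖φ‖ * ‖a‖)
    (hG2 : ∀ i φ a, G i φ a = avg fun k => G i φ (a * (W i).g k) * star ((W i).g k))
    (hG3 : ∀ i (ξ : H) (T : ℝ → ℝ), IsTrVec M ξ → (∀ ε, 0 ≤ T ε) → ∀ φ,
      ContAt ξ T φ → ContAt ξ T (G i φ))
    (hG5 : ∀ i v φ, G i (φ.comp (ContinuousLinearMap.mul ℂ (Alg M) v)) =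
      (G i φ).comp (ContinuousLinearMap.mul ℂ (Alg M) v))
    (hPr : ∀ v φ, P (φ.comp (ContinuousLinearMap.mul ℂ (Alg M) v)) =
      (P φ).comp (ContinuousLinearMap.mul ℂ (Alg M) v))
    (hP : ∀ φ, ‖P φ‖ ≤ C * ‖φ‖)
    (hPc : ∀ φ (ξ : H), IsTrVec M ξ → ∃ T : ℝ → ℝ, (∀ ε, 0 ≤ T ε) ∧ ContAt ξ T (P φ))
    (U : Ultrafilter (Finset (Pr M) × ℕ)) (hU : (U : Filter (Finset (Pr M) × ℕ)) ≤ atTop)
    {Φ : (Alg M →L[ℂ] Alg M) → Alg M}
    (hΦ : ∀ φ (η ζ : H), Tendsto (fun i => ⟪η, (G i (P φ) 1 : H →L[ℂ] H) ζ⟫_ℂ) U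
      (𝓝 ⟪η, (Φ φ : H →L[ℂ] H) ζ⟫_ℂ))
    (p : Pr M) (φ : Alg M →L[ℂ] Alg M) :
    Φ (φ.comp (ContinuousLinearMap.mul ℂ (Alg M) p.1.1)) = Φ φ * p.1.1 := by
  refine sub_eq_zero.1 (eq_zero_of_ev hM fun ξ hξ => ?_)
  obtain ⟨T, hT0, hT⟩ := hPc φ ξ hξ
  refine eq_zero_of_small U (d := fun i => G i (P φ) p.1.1 - G i (P φ) 1 * p.1.1) (fun η => ?_)
    fun ε hε => (eventually_small hCov hW hG2 (mul_nonneg hC (norm_nonneg φ)) hT0 hξ
      (fun i a => (hG1 i _ a).trans (mul_le_mul_of_nonneg_right (hP φ) (norm_nonneg a)))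
      (fun i => hG3 i ξ T hξ hT0 _ hT) p hε).filter_mono hU
  exact tendsto_sub_mul ((hΦ _ η ξ).congr fun i => by rw [comp_eval (hPr _ _) (hG5 i _ _)])
    (hΦ φ η _)

theorem stmtPhi_of (hErg : Iface.StmtErg.{u}) (hAvg : Iface.StmtAvg.{u})
    (hCov : Iface.StmtCov.{u}) (hNormal : Iface.StmtNormal.{u}) : Iface.StmtPhi.{u} := by
  intro H _ _ _ M hM hU
  classical
  obtain ⟨P, C, hPb, hPc, hPl, hPr, hPm⟩ := hNormal H M hM
  choose e he using fun K : ℕ => hU (K + 1) K.succ_pos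
  have hW : ∀ i : Finset (Pr M) × ℕ, ∃ W : Walk M, ∀ ξ : H, IsTrVec M ξ →
      ∀ p ∈ i.1, Mix W ξ p.1.1 (2 / √((i.2 + 1 : ℕ) : ℝ)) := by
    intro i
    obtain ⟨W, hW⟩ := hErg H M (i.2 + 1) (e i.2) (i.1.toList.map Subtype.val) i.2.succ_pos (he i.2)
      fun p hp => by
        obtain ⟨q, -, rfl⟩ := List.mem_map.1 hp
        exact q.2
    exact ⟨W, fun ξ hξ p hp => hW ξ hξ _ (List.mem_map.2 ⟨p, Finset.mem_toList.2 hp, rfl⟩)⟩
  choose W hW using hW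
  choose G hG1 hG2 hG3 hG4 hG5 hG6 using fun i => hAvg H M (W i)
  set C' := max C 0 with hC'
  have hP : ∀ φ, ‖P φ‖ ≤ C' * ‖φ‖ := fun φ =>
    ContinuousLinearMap.opNorm_le_bound _ (by positivity) fun a => (hPb φ a).trans (by
      gcongr; exact le_max_left _ _)
  have hGb : ∀ i φ a, ‖G i (P φ) a‖ ≤ C' * ‖φ‖ * ‖a‖ := fun i φ a =>
    (hG1 i _ a).trans (mul_le_mul_of_nonneg_right (hP φ) (norm_nonneg a))
  let U : Ultrafilter (Finset (Pr M) × ℕ) := Ultrafilter.of atTop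
  choose Φ hΦb hΦ using fun φ : Alg M →L[ℂ] Alg M =>
    exists_wlim U (fun i => G i (P φ) 1) (B := C' * ‖φ‖ * ‖(1 : Alg M)‖) (by positivity)
      fun i => hGb i φ 1
  let Φl : (Alg M →L[ℂ] Alg M) →ₗ[ℂ] Alg M :=
    { toFun := Φ
      map_add' := fun φ ψ => alg_ext fun η ζ => tendsto_nhds_unique (hΦ _ η ζ) <| by
        simpa [inner_add_right] using (hΦ φ η ζ).add (hΦ ψ η ζ)
      map_smul' := fun c φ => alg_ext fun η ζ => tendsto_nhds_unique (hΦ _ η ζ) <| by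
        simpa [inner_smul_right] using (hΦ φ η ζ).const_mul c }
  refine ⟨Φl.mkContinuous (C' * ‖(1 : Alg M)‖) fun φ =>
    (hΦb φ).trans (le_of_eq (mul_right_comm C' ‖φ‖ ‖(1 : Alg M)‖)), ?_, ?_, ?_⟩
  · intro c φ
    refine alg_ext fun η ζ => tendsto_nhds_unique (hΦ _ η ζ) ?_
    show Tendsto _ _ (𝓝 ⟪η, (c : H →L[ℂ] H) ((Φ φ : H →L[ℂ] H) ζ)⟫_ℂ)
    rw [← ContinuousLinearMap.adjoint_inner_left]
    refine (hΦ φ _ ζ).congr fun i => ?_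
    rw [ContinuousLinearMap.adjoint_inner_left, hPl, hG4]
    rfl
  · exact comp_mul_all (he 1) Φl fun p φ =>
      pair_case hCov hM (by positivity) hW hG1 hG2 hG3 hG5 hPr hP hPc U
        (Ultrafilter.of_le _) hΦ p φ
  · intro c
    refine alg_ext fun η ζ => tendsto_nhds_unique (hΦ _ η ζ) ?_
    simp only [hPm, hG6, ContinuousLinearMap.mul_apply', mul_one]
    exact tendsto_const_nhds

end Vale.Agent.P082.Phi
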