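import Vale.Agent.P082.Core

/-!
# Module interfaces for P082 (notes/P082/LEAN.md)
-/

namespace Vale.Agent.P082

open scoped InnerProductSpace
open Filter

universe u

variable {H : Type u} [NormedAddCommGroup H] [InnerProductSpace ℂ H] [CompleteSpace H]
variable {M : VonNeumannAlgebra H}

/-- Matrix units of size `K`. -/
structure IsUnits (M : VonNeumannAlgebra H) {K : ℕ} (e : Fin K → Fin K → Alg M) : Prop where
  mul : ∀ a b c d, e a b * e c d = if b = c then e a d else 0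
  star_eq : ∀ a b, star (e a b) = e b a
  sum : ∑ a, e a a = 1

/-- A label: an index and a sign. -/
abbrev Lab (m : ℕ) := Fin m × Bool

/-- The opposite label. -/
def Lab.flip {m : ℕ} (l : Lab m) : Lab m := (l.1, !l.2)

/-- The unitary of a label. -/
noncomputable def Walk.letter (W : Walk M) {m n : ℕ} (r : Fin m → Fin n → Fin W.size)
    (l : Lab m) : Alg M :=
  if l.2 then W.word (r l.1) else star (W.word (r l.1))

/-- A block of letters. -/
noncomputable def Walk.block (W : Walk M) {m n : ℕ} (r : Fin m → Fin n → Fin W.size)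
    (b : List (Lab m)) : Alg M :=
  (b.map (W.letter r)).prod

/-- The product of the `pre * block * post`. -/
noncomputable def Walk.blocks (W : Walk M) {m n j : ℕ} (r : Fin m → Fin n → Fin W.size)
    (pre post : Alg M) (s : Fin j → List (Lab m)) : Alg M :=
  (List.ofFn fun i => pre * W.block r (s i) * post).prod

/-- No letter is followed by its inverse. -/
def Reduced {m : ℕ} (b : List (Lab m)) : Prop := b.IsChain fun x y => y ≠ x.flip

/-- All labels of a pair, the second one inverted. -/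
def pairLabels {m j : ℕ} (sA sB : Fin j → List (Lab m)) : List (Lab m) :=
  (List.ofFn sA).flatten ++ (List.ofFn sB).flatten.map Lab.flip

/-- Every letter occurs exactly once and its inverse too. -/
structure GoodPair {m j : ℕ} (sA sB : Fin j → List (Lab m)) (P : ℕ) : Prop where
  nodup : (pairLabels sA sB).Nodup
  closed : ∀ l ∈ pairLabels sA sB, l.flip ∈ pairLabels sA sB
  length_le : (pairLabels sA sB).length ≤ P
  ne_nil : ∀ i, sA i ≠ [] ∧ sB i ≠ []
  reduced : ∀ i, Reduced (sA i) ∧ Reduced (sB i)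

/-- A phase. -/
noncomputable def phase {m : ℕ} (ζ : Fin m → Fin 4) (l : Lab m) : ℂ :=
  if l.2 then Complex.I ^ (ζ l.1).val else (-Complex.I) ^ (ζ l.1).val

/-- The random self-adjoint sum. -/
noncomputable def Walk.randS (W : Walk M) {m n : ℕ} (ω : (Fin m → Fin n → Fin W.size) × (Fin m → Fin 4)) :
    Alg M :=
  ((√(2 * m : ℝ))⁻¹ : ℂ) • ∑ l : Lab m, phase ω.2 l • W.letter ω.1 l

/-- The witness unitary `z * exp (i t S)`. -/
noncomputable def Walk.randU (W : Walk M) {m n : ℕ} (z : Alg M) (t : ℝ)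
    (ω : (Fin m → Fin n → Fin W.size) × (Fin m → Fin 4)) : Alg M :=
  z * NormedSpace.exp ((Complex.I * (t : ℂ)) • W.randS ω)

namespace Iface

/-- Erg: one walk serves finitely many anticommuting unitaries and all tracial vectors. -/
def StmtErg.{v} : Prop :=
  ∀ (H : Type v) [NormedAddCommGroup H] [InnerProductSpace ℂ H] [CompleteSpace H]
    (M : VonNeumannAlgebra H) (K : ℕ) (e : Fin K → Fin K → Alg M) (l : List (Alg M × Alg M)),
    0 < K → IsUnits M e →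
    (∀ p ∈ l, p.1 ∈ unitary (Alg M) ∧ p.2 ∈ unitary (Alg M) ∧ p.2 * p.1 * star p.2 = -p.1) →
    ∃ W : Walk M, ∀ ξ : H, IsTrVec M ξ → ∀ p ∈ l, Mix W ξ p.1 (2 / √K)

/-- Avg: the harmonic average of a map, linearly and naturally. -/
def StmtAvg.{v} : Prop :=
  ∀ (H : Type v) [NormedAddCommGroup H] [InnerProductSpace ℂ H] [CompleteSpace H]
    (M : VonNeumannAlgebra H) (W : Walk M),
    ∃ G : (Alg M →L[ℂ] Alg M) →ₗ[ℂ] (Alg M →L[ℂ] Alg M),
      (∀ φ a, ‖G φ a‖ ≤ ‖φ‖ * ‖a‖) ∧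
      (∀ φ a, G φ a = avg fun i => G φ (a * W.g i) * star (W.g i)) ∧
      (∀ (ξ : H) (T : ℝ → ℝ), IsTrVec M ξ → (∀ ε, 0 ≤ T ε) → ∀ φ, ContAt ξ T φ → ContAt ξ T (G φ)) ∧
      (∀ c φ, G ((ContinuousLinearMap.mul ℂ (Alg M) c).comp φ) =
        (ContinuousLinearMap.mul ℂ (Alg M) c).comp (G φ)) ∧
      (∀ v φ, G (φ.comp (ContinuousLinearMap.mul ℂ (Alg M) v)) =
        (G φ).comp (ContinuousLinearMap.mul ℂ (Alg M) v)) ∧
      ∀ c, G (ContinuousLinearMap.mul ℂ (Alg M) c) = ContinuousLinearMap.mul ℂ (Alg M) c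

/-- Mart: the martingale `G (a y) y*`. -/
def StmtMart.{v} : Prop :=
  ∀ (H : Type v) [NormedAddCommGroup H] [InnerProductSpace ℂ H] [CompleteSpace H]
    (M : VonNeumannAlgebra H) (W : Walk M) (ξ : H) (C : ℝ) (T : ℝ → ℝ) (G : Alg M →L[ℂ] Alg M),
    IsTrVec M ξ → Harm W ξ C T G → ∀ a : Alg M,
      (∀ n, avg (fun y : Fin n → Fin W.size => G (a * W.word y) * star (W.word y)) = G a) ∧
      ∀ ε : ℝ, 0 < ε → ∃ n₁, ∀ n, n₁ ≤ n → ∀ R : ℕ,
        avgR (fun p : (Fin n → Fin W.size) × (Fin R → Fin W.size) =>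
          ‖ev ξ (G (a * W.word p.1 * W.word p.2) * star (W.word p.2) - G (a * W.word p.1))‖ ^ 2)
            ≤ ε

/-- Wit: the Hilbert-kernel witness of one unitary. -/
def StmtWit.{v} : Prop :=
  ∀ (H : Type v) [NormedAddCommGroup H] [InnerProductSpace ℂ H] [CompleteSpace H]
    (M : VonNeumannAlgebra H) (ξ : H) (C : ℝ) (G : Alg M →L[ℂ] Alg M) (U η : Alg M) (J : ℕ),
    IsTrVec M ξ → (∀ a, ‖G a‖ ≤ C * ‖a‖) → U ∈ unitary (Alg M) → 0 < J →
      ‖∑ j ∈ Finset.Icc 1 J, (((1 - (j : ℝ) / J) ^ 2 / j : ℝ) : ℂ) *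
          (tr ξ (G (U ^ j) * star (U ^ j) * η) - tr ξ (G (star U ^ j) * U ^ j * η))‖
        ≤ 2 * Real.pi * C * ‖η‖

/-- Val: the value of one pair of reduced patterns. -/
def StmtVal.{v} : Prop :=
  ∀ (C : ℝ) (T : ℝ → ℝ) (j P : ℕ) (ε : ℝ), 0 ≤ C → (∀ s, 0 ≤ T s) → 1 ≤ j → 0 < ε →
    ∃ δ : ℝ, 0 < δ ∧
      ∀ (H : Type v) [NormedAddCommGroup H] [InnerProductSpace ℂ H] [CompleteSpace H]
        (M : VonNeumannAlgebra H) (W : Walk M) (ξ : H) (z : Alg M) (G : Alg M →L[ℂ] Alg M),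
        IsTrVec M ξ → z ∈ unitary (Alg M) → (∀ ζ, IsTrVec M ζ → Mix W ζ z δ) → Harm W ξ C T G →
          ∀ᶠ n in atTop, ∀ (m : ℕ) (pre post : Alg M),
            (pre = z ∧ post = 1) ∨ (pre = 1 ∧ post = star z) →
            ∀ sA sB : Fin j → List (Lab m), GoodPair sA sB P → ∀ η : Alg M,
              ‖avg (fun r : Fin m → Fin n → Fin W.size =>
                  tr ξ (G (W.blocks r pre post sA) * star (W.blocks r pre post sB) * η))
                - (if sA = sB then tr ξ (G pre * star pre * η) else 0)‖ ≤ ε * ‖η‖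

/-- Lim: the powers of the witness unitary see `G z` on the right and `G 1` on the left. -/
def StmtLim.{v} : Prop :=
  ∀ (C : ℝ) (T : ℝ → ℝ) (J : ℕ) (ε : ℝ), 0 ≤ C → (∀ s, 0 ≤ T s) → 0 < ε →
    ∃ (δ t : ℝ), 0 < δ ∧
      ∀ (H : Type v) [NormedAddCommGroup H] [InnerProductSpace ℂ H] [CompleteSpace H]
        (M : VonNeumannAlgebra H) (W : Walk M) (ξ : H) (z : Alg M) (G : Alg M →L[ℂ] Alg M),
        IsTrVec M ξ → z ∈ unitary (Alg M) → (∀ ζ, IsTrVec M ζ → Mix W ζ z δ) → Harm W ξ C T G →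
          ∃ m n : ℕ, 0 < m ∧ ∀ j ∈ Finset.Icc 1 J, ∀ η : Alg M,
            ‖avg (fun ω : (Fin m → Fin n → Fin W.size) × (Fin m → Fin 4) =>
                tr ξ (G (W.randU z t ω ^ j) * star (W.randU z t ω ^ j) * η))
              - tr ξ (G z * star z * η)‖ ≤ ε * ‖η‖ ∧
            ‖avg (fun ω : (Fin m → Fin n → Fin W.size) × (Fin m → Fin 4) =>
                tr ξ (G (star (W.randU z t ω) ^ j) * W.randU z t ω ^ j * η))
              - tr ξ (G 1 * η)‖ ≤ ε * ‖η‖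

/-- Cov: covariance for one walk, quantitatively. -/
def StmtCov.{v} : Prop :=
  ∀ (C : ℝ) (T : ℝ → ℝ) (ε : ℝ), 0 ≤ C → (∀ s, 0 ≤ T s) → 0 < ε →
    ∃ δ : ℝ, 0 < δ ∧
      ∀ (H : Type v) [NormedAddCommGroup H] [InnerProductSpace ℂ H] [CompleteSpace H]
        (M : VonNeumannAlgebra H) (W : Walk M) (ξ : H) (z : Alg M) (G : Alg M →L[ℂ] Alg M),
        IsTrVec M ξ → z ∈ unitary (Alg M) → (∀ ζ, IsTrVec M ζ → Mix W ζ z δ) → Harm W ξ C T G →
          ‖ev ξ (G z - G 1 * z)‖ ≤ ε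

/-- Normal: a natural projection onto the maps continuous at every tracial vector. -/
def StmtNormal.{v} : Prop :=
  ∀ (H : Type v) [NormedAddCommGroup H] [InnerProductSpace ℂ H] [CompleteSpace H]
    (M : VonNeumannAlgebra H), HasTracialVectors M →
    ∃ (P : (Alg M →L[ℂ] Alg M) →ₗ[ℂ] (Alg M →L[ℂ] Alg M)) (C : ℝ),
      (∀ φ a, ‖P φ a‖ ≤ C * ‖φ‖ * ‖a‖) ∧
      (∀ φ (ξ : H), IsTrVec M ξ → ∃ T : ℝ → ℝ, (∀ ε, 0 ≤ T ε) ∧ ContAt ξ T (P φ)) ∧
      (∀ c φ, P ((ContinuousLinearMap.mul ℂ (Alg M) c).comp φ) =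
        (ContinuousLinearMap.mul ℂ (Alg M) c).comp (P φ)) ∧
      (∀ v φ, P (φ.comp (ContinuousLinearMap.mul ℂ (Alg M) v)) =
        (P φ).comp (ContinuousLinearMap.mul ℂ (Alg M) v)) ∧
      ∀ c, P (ContinuousLinearMap.mul ℂ (Alg M) c) = ContinuousLinearMap.mul ℂ (Alg M) c

/-- Phi: what the cocycle step uses. -/
def StmtPhi.{v} : Prop :=
  ∀ (H : Type v) [NormedAddCommGroup H] [InnerProductSpace ℂ H] [CompleteSpace H]
    (M : VonNeumannAlgebra H), HasTracialVectors M →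
    (∀ K : ℕ, 0 < K → ∃ e : Fin K → Fin K → Alg M, IsUnits M e) →
    ∃ Φ : (Alg M →L[ℂ] Alg M) →L[ℂ] Alg M,
      (∀ c φ, Φ ((ContinuousLinearMap.mul ℂ (Alg M) c).comp φ) = c * Φ φ) ∧
      (∀ v φ, Φ (φ.comp (ContinuousLinearMap.mul ℂ (Alg M) v)) = Φ φ * v) ∧
      ∀ c, Φ (ContinuousLinearMap.mul ℂ (Alg M) c) = c

/-- The hand-in: every bounded cocycle of a type II₁ algebra is a coboundary. -/
def StmtMain.{v} : Prop :=
  ∀ (H : Type v) [NormedAddCommGroup H] [InnerProductSpace ℂ H] [CompleteSpace H]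
    (M : VonNeumannAlgebra H), HasTracialVectors M →
    (∀ K : ℕ, 0 < K → ∃ e : Fin K → Fin K → Alg M, IsUnits M e) →
    ∀ n, Vanishes M n

end Iface

end Vale.Agent.P082
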