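import Vale.Agent.P082.Wit.Main
import Vale.Agent.P082.Lim.Main
import Vale.Agent.P082.Cov
import Vale.Agent.P082.Phi
import Vale.Agent.P082.Avg.Avg
import Vale.Agent.P082.Erg.Main
import Vale.Agent.P082.Normal.Stmt
import Vale.Agent.P082.Main
import Vale.Agent.P082.Scope.Main

/-!
# P082: assembly of all modules
-/

namespace Vale.Agent.P082

universe u

/-- Everything but the value of one pair of reduced patterns is proved. -/
theorem vanishes_of_val (hVal : Iface.StmtVal.{u}) {H : Type u} [NormedAddCommGroup H]
    [InnerProductSpace ℂ H] [CompleteSpace H] (M : VonNeumannAlgebra H)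
    (hT : Scope.HasNormalTraces M) (hC : Scope.NoAbelianProjection M) (n : ℕ) : Vanishes M n :=
  Scope.vanishes_typeII
    (stmtMain (Phi.stmtPhi_of Erg.stmtErg Avg.stmtAvg
      (Cov.stmtCov_of Wit.stmtWit (Lim.stmtLim hVal)) Normal.stmtNormal)) M hT hC n

end Vale.Agent.P082
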