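import Mathlib

/-!
# P082: bounded Hochschild cochains of a von Neumann algebra
-/

namespace Vale.Agent.P082

universe u

variable {H : Type u} [NormedAddCommGroup H] [InnerProductSpace ℂ H] [CompleteSpace H]

/-- The bounded `k`-linear maps from `M^k` to `M`. -/
abbrev Cochain (M : VonNeumannAlgebra H) (k : ℕ) :=
  ContinuousMultilinearMap ℂ (fun _ : Fin k => M.toStarSubalgebra) M.toStarSubalgebra

/-- The Hochschild differential at a point. -/
noncomputable def hochDiff {M : VonNeumannAlgebra H} {k : ℕ} (f : Cochain M k)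
    (a : Fin (k + 1) → M.toStarSubalgebra) : M.toStarSubalgebra :=
  a 0 * f (Fin.tail a) +
    ∑ j : Fin k, (-1 : ℂ) ^ (j.val + 1) • f (Fin.contractNth j.castSucc (· * ·) a) +
      (-1 : ℂ) ^ (k + 1) • (f (Fin.init a) * a (Fin.last k))

/-- `H_b^(n+1)(M,M) = 0`: every bounded cocycle is the coboundary of a bounded cochain. -/
def Vanishes (M : VonNeumannAlgebra H) (n : ℕ) : Prop :=
  ∀ f : Cochain M (n + 1), (∀ a, hochDiff f a = 0) → ∃ g : Cochain M n, ∀ a, f a = hochDiff g a

/-- A separating family of tracial vectors: the algebra is finite. -/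
def HasTracialVectors (M : VonNeumannAlgebra H) : Prop :=
  ∃ S : Set H, (∀ ξ ∈ S, ∀ y ∈ M, ‖star y ξ‖ = ‖y ξ‖) ∧
    ∀ y ∈ M, (∀ ξ ∈ S, y ξ = 0) → y = 0

end Vale.Agent.P082
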