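import Vale.Agent.P082.Statement
import Vale.Agent.P082.Defs

/-!
# P082: cochains on the subtype and cochains on operators
-/

namespace Vale.Agent.P082

open Statement

universe u

variable {H : Type u} [NormedAddCommGroup H] [InnerProductSpace ℂ H] [CompleteSpace H]
variable {M : VonNeumannAlgebra H}

theorem inM_coe {k : ℕ} (v : Fin k → M.toStarSubalgebra) :
    InM M (fun i => (v i : H →L[ℂ] H)) := fun i => (v i).2

theorem coe_update {k : ℕ} [DecidableEq (Fin k)] (v : Fin k → M.toStarSubalgebra) (i : Fin k)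
    (x : M.toStarSubalgebra) : (fun l => ((Function.update v i x) l : H →L[ℂ] H)) =
      Function.update (fun l => (v l : H →L[ℂ] H)) i (x : H →L[ℂ] H) :=
  funext fun l => Function.apply_update (fun _ (z : M.toStarSubalgebra) => (z : H →L[ℂ] H)) v i x l

/-- An operator cochain as a cochain on the subtype. -/
noncomputable def ofOperators {k : ℕ} {f : (Fin k → H →L[ℂ] H) → H →L[ℂ] H}
    (hf : IsCochain M f) : Cochain M k :=
  MultilinearMap.mkContinuous
    { toFun := fun v => ⟨f fun i => (v i : H →L[ℂ] H), hf.mem _ (inM_coe v)⟩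
      map_update_add' := fun {inst} v i x y => by
        obtain rfl : inst = instDecidableEqFin k := Subsingleton.elim _ _
        apply Subtype.ext
        simp only [AddMemClass.coe_add, coe_update]
        exact hf.map_add _ (inM_coe v) i x.1 x.2 y.1 y.2
      map_update_smul' := fun {inst} v i c x => by
        obtain rfl : inst = instDecidableEqFin k := Subsingleton.elim _ _
        apply Subtype.ext
        simp only [SetLike.val_smul, coe_update]
        exact hf.map_smul _ (inM_coe v) i x.1 x.2 c }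
    hf.bounded.choose fun v => hf.bounded.choose_spec _ (inM_coe v)

theorem ofOperators_apply {k : ℕ} {f : (Fin k → H →L[ℂ] H) → H →L[ℂ] H} (hf : IsCochain M f)
    (v : Fin k → M.toStarSubalgebra) :
    (ofOperators hf v : H →L[ℂ] H) = f fun i => (v i : H →L[ℂ] H) := rfl

open Classical in
/-- A cochain on the subtype as an operator cochain. -/
noncomputable def toOperators {k : ℕ} (g : Cochain M k) (a : Fin k → H →L[ℂ] H) : H →L[ℂ] H :=
  if h : InM M a then (g fun i => (⟨a i, h i⟩ : M.toStarSubalgebra) : M.toStarSubalgebra) else 0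

theorem toOperators_coe {k : ℕ} (g : Cochain M k) (v : Fin k → M.toStarSubalgebra) :
    toOperators g (fun i => (v i : H →L[ℂ] H)) = (g v : M.toStarSubalgebra) := by
  rw [toOperators, dif_pos (inM_coe v)]

theorem exists_coe {k : ℕ} {a : Fin k → H →L[ℂ] H} (ha : InM M a) :
    ∃ v : Fin k → M.toStarSubalgebra, (fun i => (v i : H →L[ℂ] H)) = a :=
  ⟨fun i => ⟨a i, ha i⟩, rfl⟩

theorem isCochain_toOperators {k : ℕ} (g : Cochain M k) : IsCochain M (toOperators g) where
  mem := fun a ha => by
    obtain ⟨v, rfl⟩ := exists_coe ha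
    rw [toOperators_coe]
    exact (g v).2
  map_add := fun a ha i x hx y hy => by
    obtain ⟨v, rfl⟩ := exists_coe ha
    obtain ⟨x, rfl⟩ : ∃ x' : M.toStarSubalgebra, (x' : H →L[ℂ] H) = x := ⟨⟨x, hx⟩, rfl⟩
    obtain ⟨y, rfl⟩ : ∃ y' : M.toStarSubalgebra, (y' : H →L[ℂ] H) = y := ⟨⟨y, hy⟩, rfl⟩
    rw [← AddMemClass.coe_add, ← coe_update, ← coe_update, ← coe_update, toOperators_coe,
      toOperators_coe, toOperators_coe, g.map_update_add, AddMemClass.coe_add]
  map_smul := fun a ha i x hx c => by
    obtain ⟨v, rfl⟩ := exists_coe ha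
    obtain ⟨x, rfl⟩ : ∃ x' : M.toStarSubalgebra, (x' : H →L[ℂ] H) = x := ⟨⟨x, hx⟩, rfl⟩
    rw [← SetLike.val_smul, ← coe_update, ← coe_update, toOperators_coe, toOperators_coe,
      g.map_update_smul, SetLike.val_smul]
  bounded := ⟨‖g‖, fun a ha => by
    obtain ⟨v, rfl⟩ := exists_coe ha
    rw [toOperators_coe]
    exact g.le_opNorm v⟩

theorem coe_hochDiff {k : ℕ} (g : Cochain M k) {F : (Fin k → H →L[ℂ] H) → H →L[ℂ] H}
    (hF : ∀ v, F (fun i => (v i : H →L[ℂ] H)) = (g v : M.toStarSubalgebra))
    (a : Fin (k + 1) → M.toStarSubalgebra) :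
    diff F (fun i => (a i : H →L[ℂ] H)) = (hochDiff g a : M.toStarSubalgebra) := by
  have hc : ∀ j : Fin k, (Fin.contractNth j.castSucc (· * ·) fun i => (a i : H →L[ℂ] H)) =
      fun i => ((Fin.contractNth j.castSucc (· * ·) a) i : H →L[ℂ] H) := fun j => by
    funext i
    simp only [Fin.contractNth]
    split_ifs <;> rfl
  have h0 : Fin.tail (fun i => (a i : H →L[ℂ] H)) = fun i => (Fin.tail a i : H →L[ℂ] H) := rfl
  have h1 : Fin.init (fun i => (a i : H →L[ℂ] H)) = fun i => (Fin.init a i : H →L[ℂ] H) := rfl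
  simp only [diff, hc, h0, h1, hF, hochDiff, AddMemClass.coe_add, SetLike.val_smul,
    MulMemClass.coe_mul, AddSubmonoidClass.coe_finsetSum]

/-- Vanishing on the subtype gives vanishing for operator cochains. -/
theorem cohomologyVanishes_of (h : ∀ n, Vanishes M n) : CohomologyVanishes M := by
  intro n f hf hd
  obtain ⟨g, hg⟩ := h n (ofOperators hf) fun a => Subtype.ext <| by
    rw [← coe_hochDiff (ofOperators hf) (fun v => (ofOperators_apply hf v).symm) a]
    exact hd _ (inM_coe a)
  refine ⟨toOperators g, isCochain_toOperators g, fun a ha => ?_⟩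
  obtain ⟨v, rfl⟩ := exists_coe ha
  rw [coe_hochDiff g (fun w => toOperators_coe g w) v, ← hg v, ofOperators_apply]

end Vale.Agent.P082
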