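import Vale.Agent.P082.Defs

/-!
# Walks on unitaries of a von Neumann algebra with a tracial vector

Shared definitions for P082 (notes/P082/LEAN.md).
-/

namespace Vale.Agent.P082

open scoped InnerProductSpace
open Filter

universe u

variable {H : Type u} [NormedAddCommGroup H] [InnerProductSpace ℂ H] [CompleteSpace H]

/-- The algebra as a type. -/
abbrev Alg (M : VonNeumannAlgebra H) := M.toStarSubalgebra

variable {M : VonNeumannAlgebra H}

theorem isClosed_alg (M : VonNeumannAlgebra H) : IsClosed (M : Set (H →L[ℂ] H)) := by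
  rw [← VonNeumannAlgebra.centralizer_centralizer M]
  exact Set.isClosed_centralizer _

instance (M : VonNeumannAlgebra H) : CompleteSpace (Alg M) :=
  (isClosed_alg M).completeSpace_coe

/-- The C⋆-algebra structure. -/
noncomputable instance (M : VonNeumannAlgebra H) : CStarAlgebra (Alg M) := { }

/-- Apply an element to a vector. -/
noncomputable def ev (ξ : H) (a : Alg M) : H := (a : H →L[ℂ] H) ξ

/-- A tracial unit vector. -/
structure IsTrVec (M : VonNeumannAlgebra H) (ξ : H) : Prop where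
  norm : ‖ξ‖ = 1
  star_norm : ∀ a : Alg M, ‖ev ξ (star a)‖ = ‖ev ξ a‖

/-- The vector state. -/
noncomputable def tr (ξ : H) (a : Alg M) : ℂ := ⟪ξ, ev ξ a⟫_ℂ

/-- Continuity of a map at `ξ` through finitely many tracial vectors, with the modulus `T`. -/
def ContAt (ξ : H) (T : ℝ → ℝ) (φ : Alg M →L[ℂ] Alg M) : Prop :=
  ∀ ε : ℝ, 0 < ε → ∃ F : Finset H, (∀ η ∈ F, IsTrVec M η) ∧ (F.card : ℝ) ≤ T ε ∧
    ∀ a, ‖ev ξ (φ a)‖ ≤ ε * ‖a‖ + T ε * ∑ η ∈ F, ‖ev η a‖

/-- A finite symmetric family of unitaries. -/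
structure Walk (M : VonNeumannAlgebra H) where
  /-- the number of steps to choose from -/
  size : ℕ
  size_pos : 0 < size
  /-- the steps -/
  g : Fin size → Alg M
  unit : ∀ i, g i ∈ unitary (Alg M)
  /-- the inverse step -/
  inv : Equiv.Perm (Fin size)
  g_inv : ∀ i, g (inv i) = star (g i)

namespace Walk

variable (W : Walk M)

/-- The product of a list of steps. -/
noncomputable def word {n : ℕ} (y : Fin n → Fin W.size) : Alg M := (List.ofFn fun i => W.g (y i)).prod

/-- `Q ↦ E u Q u*`. -/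
noncomputable def conjAvg (Q : Alg M) : Alg M :=
  (W.size : ℂ)⁻¹ • ∑ i, W.g i * Q * star (W.g i)

end Walk

/-- The average over a finite type. -/
noncomputable def avg {α : Type*} [Fintype α] {E : Type*} [AddCommMonoid E] [Module ℂ E]
    (f : α → E) : E :=
  (Fintype.card α : ℂ)⁻¹ • ∑ a, f a

/-- The average of a real function. -/
noncomputable def avgR {α : Type*} [Fintype α] (f : α → ℝ) : ℝ :=
  (Fintype.card α : ℝ)⁻¹ * ∑ a, f a

/-- What the ergodic theorem supplies for a walk, a unitary `z` and an error `δ`. -/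
structure Mix (W : Walk M) (ξ : H) (z : Alg M) (δ : ℝ) : Prop where
  step_z : ∃ i, W.g i = z
  step_one : ∃ i, W.g i = 1
  gap : Tendsto (fun n => ‖ev ξ (W.conjAvg^[n] z)‖) atTop (nhds 0)
  decr : ∀ (Q : Alg M) (n₀ n : ℕ), n₀ ≤ n →
    ‖ev ξ (W.conjAvg^[n] Q)‖ ^ 2 ≤ (⟪ev ξ Q, ev ξ (W.conjAvg^[2 * n₀] Q)⟫_ℂ).re
  small : ∀ c : Alg M, c = 1 ∨ c = z ∨ c = star z → ∀ᶠ n₀ in atTop, ∀ᶠ n in atTop,
    avgR (fun y : Fin (2 * n₀) → Fin W.size =>
      ‖ev ξ (W.conjAvg^[n] (star c * W.word y * c))‖) ≤ δ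

/-- A contraction-valued harmonic average for the walk. -/
structure Harm (W : Walk M) (ξ : H) (C : ℝ) (T : ℝ → ℝ) (G : Alg M →L[ℂ] Alg M) : Prop where
  bound : ∀ a, ‖G a‖ ≤ C * ‖a‖
  cont : ContAt ξ T G
  harm : ∀ a, G a = avg fun i => G (a * W.g i) * star (W.g i)

end Vale.Agent.P082
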