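import Mathlib

/-!
# P082: bounded cochains as maps on operators, for the statement of the result
-/

namespace Vale.Agent.P082.Statement

universe u

variable {H : Type u} [NormedAddCommGroup H] [InnerProductSpace ℂ H] [CompleteSpace H]

/-- All entries lie in `M`. -/
def InM (M : VonNeumannAlgebra H) {k : ℕ} (a : Fin k → H →L[ℂ] H) : Prop := ∀ i, a i ∈ M

/-- `f` restricts to a bounded `k`-linear map from `M^k` to `M`; only its values on `M` matter. -/
structure IsCochain (M : VonNeumannAlgebra H) {k : ℕ}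
    (f : (Fin k → H →L[ℂ] H) → H →L[ℂ] H) : Prop where
  mem : ∀ a, InM M a → f a ∈ M
  map_add : ∀ a, InM M a → ∀ i, ∀ x ∈ M, ∀ y ∈ M,
    f (Function.update a i (x + y)) = f (Function.update a i x) + f (Function.update a i y)
  map_smul : ∀ a, InM M a → ∀ i, ∀ x ∈ M, ∀ c : ℂ,
    f (Function.update a i (c • x)) = c • f (Function.update a i x)
  bounded : ∃ C : ℝ, ∀ a, InM M a → ‖f a‖ ≤ C * ∏ i, ‖a i‖

/-- The Hochschild differential of a `k`-cochain. -/
noncomputable def diff {k : ℕ} (f : (Fin k → H →L[ℂ] H) → H →L[ℂ] H)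
    (a : Fin (k + 1) → H →L[ℂ] H) : H →L[ℂ] H :=
  a 0 * f (Fin.tail a) +
    ∑ j : Fin k, (-1 : ℂ) ^ (j.val + 1) • f (Fin.contractNth j.castSucc (· * ·) a) +
      (-1 : ℂ) ^ (k + 1) • (f (Fin.init a) * a (Fin.last k))

/-- Every bounded `k`-cocycle of `M` into itself is a coboundary, for every `k ≥ 1`. -/
def CohomologyVanishes (M : VonNeumannAlgebra H) : Prop :=
  ∀ (n : ℕ) (f : (Fin (n + 1) → H →L[ℂ] H) → H →L[ℂ] H), IsCochain M f →
    (∀ a, InM M a → diff f a = 0) →
      ∃ g : (Fin n → H →L[ℂ] H) → H →L[ℂ] H, IsCochain M g ∧ ∀ a, InM M a → f a = diff g a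

end Vale.Agent.P082.Statement
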