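import Mathlib

/-!
# P082: the Hilbert kernel witness of one unitary

The finite Fourier sum `∑ (1 - |j|/J) U^j / j` has norm at most `π`. Paired with the Fejér kernel,
averaged over the rotations of `U`, it forces two constant moment sequences to agree.
-/

namespace Vale.Agent.P082

open scoped InnerProductSpace ComplexOrder
open Finset

universe u

/-- `(1 - (j+1)/J) / (j+1)`. -/
noncomputable def hcoef (J j : ℕ) : ℝ := (1 - (j + 1 : ℝ) / J) / (j + 1)

/-- The sine sum of the Hilbert kernel. -/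
noncomputable def sineSum (J : ℕ) (θ : ℝ) : ℝ :=
  ∑ j ∈ range J, hcoef J j * Real.sin ((j + 1 : ℝ) * θ)

theorem sum_cos_diff (θ : ℝ) : ∀ J : ℕ,
    ∑ k ∈ range J, ∑ l ∈ range J, Real.cos (((k : ℝ) - l) * θ) =
      J + 2 * ∑ j ∈ range J, ((J : ℝ) - (j + 1)) * Real.cos ((j + 1 : ℝ) * θ) := by
  intro J
  induction J with
  | zero => simp
  | succ J ih =>
    have hrow : ∑ k ∈ range J, Real.cos (((k : ℝ) - J) * θ) =
        ∑ j ∈ range J, Real.cos ((j + 1 : ℝ) * θ) := by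
      rw [← sum_range_reflect (fun j => Real.cos ((j + 1 : ℝ) * θ)) J]
      refine sum_congr rfl fun k hk => ?_
      rw [mem_range] at hk
      rw [← Real.cos_neg]
      congr 1
      have : ((J - 1 - k : ℕ) : ℝ) = (J : ℝ) - 1 - k := by
        rw [Nat.cast_sub (by omega), Nat.cast_sub (by omega)]
        push_cast
        ring
      rw [this]
      ring
    have hrow' : ∑ l ∈ range J, Real.cos (((J : ℝ) - l) * θ) =
        ∑ j ∈ range J, Real.cos ((j + 1 : ℝ) * θ) := by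
      rw [← hrow]
      refine sum_congr rfl fun l _ => ?_
      rw [← Real.cos_neg]
      congr 1
      ring
    simp only [sum_range_succ, sum_add_distrib]
    rw [ih, hrow, hrow', sub_self, zero_mul, Real.cos_zero]
    push_cast
    simp only [sub_mul, add_mul, one_mul, sum_sub_distrib, sum_add_distrib]
    ring

theorem fejer_nonneg (J : ℕ) (θ : ℝ) :
    0 ≤ (J : ℝ) + 2 * ∑ j ∈ range J, ((J : ℝ) - (j + 1)) * Real.cos ((j + 1 : ℝ) * θ) := by
  rw [← sum_cos_diff]
  have e : ∑ k ∈ range J, ∑ l ∈ range J, Real.cos (((k : ℝ) - l) * θ) =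
      (∑ k ∈ range J, Real.cos (k * θ)) ^ 2 + (∑ k ∈ range J, Real.sin (k * θ)) ^ 2 := by
    simp only [sub_mul, Real.cos_sub, sum_add_distrib, sq, sum_mul_sum]
  rw [e]
  positivity

/-- The Hilbert kernel is bounded. -/
theorem abs_sineSum_le (J : ℕ) (θ : ℝ) : |sineSum J θ| ≤ Real.pi / 2 := by
  rcases Nat.eq_zero_or_pos J with rfl | hJ
  · simp [sineSum]
    positivity
  have hJ0 : (0 : ℝ) < J := Nat.cast_pos.2 hJ
  have hd : ∀ x, HasDerivAt (sineSum J)
      (∑ j ∈ range J, (1 - (j + 1 : ℝ) / J) * Real.cos ((j + 1 : ℝ) * x)) x := by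
    intro x
    have h := HasDerivAt.fun_sum (u := range J) fun j _ =>
      (((hasDerivAt_id x).const_mul (j + 1 : ℝ)).sin).const_mul (hcoef J j)
    refine h.congr_deriv (sum_congr rfl fun j _ => ?_)
    simp only [id_eq, hcoef]
    field_simp
  have hlow : ∀ x, -(1 / 2 : ℝ) ≤ ∑ j ∈ range J, (1 - (j + 1 : ℝ) / J) * Real.cos ((j + 1 : ℝ) * x) := by
    intro x
    have h := fejer_nonneg J x
    have e : ∑ j ∈ range J, (1 - (j + 1 : ℝ) / J) * Real.cos ((j + 1 : ℝ) * x) =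
        (∑ j ∈ range J, ((J : ℝ) - (j + 1)) * Real.cos ((j + 1 : ℝ) * x)) / J := by
      rw [sum_div]
      refine sum_congr rfl fun j _ => ?_
      field_simp
    rw [e, le_div_iff₀ hJ0]
    linarith
  have hmono : Monotone fun x => sineSum J x + x / 2 := by
    refine monotone_of_hasDerivAt_nonneg
      (fun x => (hd x).add ((hasDerivAt_id x).div_const 2)) fun x => ?_
    have := hlow x
    simp only [Pi.zero_apply]
    linarith
  have hπ : sineSum J Real.pi = 0 := by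
    refine sum_eq_zero fun j _ => ?_
    rw [show ((j : ℝ) + 1) * Real.pi = ((j + 1 : ℕ) : ℝ) * Real.pi by push_cast; ring,
      Real.sin_nat_mul_pi, mul_zero]
  have h0 : sineSum J 0 = 0 := sum_eq_zero fun j _ => by simp
  have hnn : ∀ x, 0 ≤ x → x ≤ Real.pi → |sineSum J x| ≤ Real.pi / 2 := by
    intro x hx hx'
    have h1 := hmono hx
    have h2 := hmono hx'
    simp only [h0, hπ] at h1 h2
    rw [abs_le]
    constructor <;> linarith
  have hodd : ∀ x, sineSum J (-x) = -sineSum J x := fun x => by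
    simp [sineSum, mul_neg, Real.sin_neg, sum_neg_distrib]
  have hper : Function.Periodic (sineSum J) (2 * Real.pi) := fun x => by
    refine sum_congr rfl fun j _ => ?_
    rw [mul_add, show ((j : ℝ) + 1) * (2 * Real.pi) = ((j + 1 : ℕ) : ℝ) * (2 * Real.pi) by
      push_cast; ring, Real.sin_add_nat_mul_two_pi]
  obtain ⟨y, hy, hxy⟩ := hper.exists_mem_Ioc (by positivity) θ (-Real.pi)
  rw [hxy]
  rcases le_total 0 y with h | h
  · exact hnn y h (by linarith [hy.2])
  · rw [← neg_neg y, hodd, abs_neg]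
    exact hnn _ (by linarith) (by linarith [hy.1])

variable {H : Type u} [NormedAddCommGroup H] [InnerProductSpace ℂ H] [CompleteSpace H]

variable {B : Type*} [CStarAlgebra B]

/-- The witness. -/
noncomputable def wit (J : ℕ) (U : B) : B :=
  ∑ j ∈ range J, (hcoef J j : ℂ) • (U ^ (j + 1) - star U ^ (j + 1))

theorem norm_wit_le (J : ℕ) {U : B} (hU : U ∈ unitary B) :
    ‖wit J U‖ ≤ Real.pi := by
  have hn : IsStarNormal U := ⟨(Unitary.star_mul_self_of_mem hU).trans
    (Unitary.mul_star_self_of_mem hU).symm⟩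
  have e : wit J U = cfc (fun z : ℂ => ∑ j ∈ range J,
      (hcoef J j : ℂ) * (z ^ (j + 1) - star z ^ (j + 1))) U := by
    rw [← Finset.sum_fn, cfc_sum _ _ _ (fun _ _ => by fun_prop)]
    refine sum_congr rfl fun j _ => ?_
    rw [cfc_const_mul _ _ _ (by fun_prop), cfc_sub _ _ _ (by fun_prop) (by fun_prop),
      cfc_pow_id (R := ℂ) U (j + 1) hn, cfc_pow _ _ _ (by fun_prop) hn,
      cfc_star_id (R := ℂ) U hn]
  rw [e]
  refine norm_cfc_le Real.pi_pos.le fun z hz => ?_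
  have hz1 : ‖z‖ = 1 := by
    simpa using Unitary.spectrum_subset_circle (⟨U, hU⟩ : unitary B) hz
  obtain ⟨θ, rfl⟩ := (Complex.norm_eq_one_iff z).1 hz1
  have h : ∀ j : ℕ, Complex.exp (θ * Complex.I) ^ (j + 1) -
      star (Complex.exp (θ * Complex.I)) ^ (j + 1) =
      2 * Complex.I * (Real.sin ((j + 1 : ℝ) * θ) : ℂ) := by
    intro j
    rw [show star (Complex.exp (θ * Complex.I)) = Complex.exp (-(θ * Complex.I)) by
      rw [Complex.star_def, ← Complex.exp_conj, map_mul, Complex.conj_ofReal, Complex.conj_I]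
      ring_nf, ← Complex.exp_nat_mul, ← Complex.exp_nat_mul, Complex.ofReal_sin, Complex.sin]
    push_cast
    field_simp
    ring_nf
    simp [Complex.I_sq]
    ring
  simp only [h]
  rw [show ∑ j ∈ range J, (hcoef J j : ℂ) * (2 * Complex.I * (Real.sin ((j + 1 : ℝ) * θ) : ℂ)) =
      2 * Complex.I * (sineSum J θ : ℂ) by
    rw [sineSum, Complex.ofReal_sum, mul_sum]
    refine sum_congr rfl fun j _ => ?_
    push_cast
    ring, norm_mul, norm_mul, Complex.norm_ofNat, Complex.norm_I, Complex.norm_real,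
    Real.norm_eq_abs]
  linarith [abs_sineSum_le J θ]

theorem sum_root_zpow {L : ℕ} {ζ : ℂ} (hζ : IsPrimitiveRoot ζ L) {n : ℤ} (hn : n.natAbs < L) :
    ∑ r ∈ range L, (ζ ^ r) ^ n = if n = 0 then (L : ℂ) else 0 := by
  have e : ∀ r : ℕ, (ζ ^ r) ^ n = (ζ ^ n) ^ r := fun r => by
    rw [← zpow_natCast, ← zpow_mul, mul_comm, zpow_mul, zpow_natCast]
  simp only [e]
  rcases eq_or_ne n 0 with rfl | h0
  · simp
  · have h1 : ζ ^ n ≠ 1 := by
      rw [Ne, hζ.zpow_eq_one_iff_dvd]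
      intro hd
      have := Int.natAbs_dvd_natAbs.2 hd
      exact absurd (Nat.le_of_dvd (Int.natAbs_pos.2 h0) (by simpa using this)) (by omega)
    rw [if_neg h0, geom_sum_eq h1, ← zpow_natCast, ← zpow_mul, mul_comm, zpow_mul, zpow_natCast,
      hζ.pow_eq_one, one_zpow, sub_self, zero_div]

/-- One unitary: the averaged pairing of the witness with the Fejér kernel. -/
theorem norm_moment_sum_le {U : B} (hU : U ∈ unitary B) (A : B →ₗ[ℂ] (H →L[ℂ] H))
    {C : ℝ} (hC : 0 ≤ C) (hA : ∀ a, ‖A a‖ ≤ C * ‖a‖) {J : ℕ} (hJ : 0 < J)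
    (Ω : H) (u : ℕ → H) (hu : ∀ k, ‖u k‖ = ‖Ω‖) {Tp Tm : ℕ → ℂ}
    (hTp : ∀ j k, k + j < J → ⟪u k, A (U ^ j) (u (k + j))⟫_ℂ = Tp j)
    (hTm : ∀ j k, k + j < J → ⟪u (k + j), A (star U ^ j) (u k)⟫_ℂ = Tm j) :
    ‖∑ j ∈ range J, ((hcoef J j * (1 - (j + 1 : ℝ) / J) : ℝ) : ℂ) * (Tp (j + 1) - Tm (j + 1))‖ ≤
      Real.pi * C * ‖Ω‖ ^ 2 := by
  set L := 3 * J with hL
  have hL0 : 0 < L := by omega
  obtain ⟨ζ, hζ⟩ : ∃ ζ : ℂ, IsPrimitiveRoot ζ L :=
    ⟨_, Complex.isPrimitiveRoot_exp L hL0.ne'⟩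
  have hζ1 : ∀ r : ℕ, ‖ζ ^ r‖ = 1 := fun r => by
    rw [norm_pow, hζ.norm'_eq_one hL0.ne', one_pow]
  set v : ℕ → H := fun r => ∑ k ∈ range J, (star (ζ ^ r)) ^ k • u k with hv
  -- the pairing of two rotated terms
  have hphase : ∀ (r k l : ℕ), starRingEnd ℂ ((star (ζ ^ r)) ^ k) * (star (ζ ^ r)) ^ l =
      (ζ ^ r) ^ ((k : ℤ) - l) := by
    intro r k l
    have hne : ζ ^ r ≠ 0 := fun h => by simpa [h] using hζ1 r
    rw [map_pow, Complex.star_def, Complex.conj_conj, zpow_sub₀ hne, zpow_natCast, zpow_natCast,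
      ← Complex.inv_eq_conj (hζ1 r), inv_pow, div_eq_mul_inv]
  have hvv : ∀ (r : ℕ) (a : H →L[ℂ] H), ⟪v r, a (v r)⟫_ℂ =
      ∑ k ∈ range J, ∑ l ∈ range J, (ζ ^ r) ^ ((k : ℤ) - l) * ⟪u k, a (u l)⟫_ℂ := by
    intro r a
    simp only [hv]
    rw [sum_inner]
    refine sum_congr rfl fun k _ => ?_
    rw [inner_smul_left, map_sum, inner_sum, mul_sum]
    refine sum_congr rfl fun l _ => ?_
    rw [map_smul, inner_smul_right, ← hphase r k l]
    ring
  have hnorm : ∑ r ∈ range L, (‖v r‖ ^ 2 : ℝ) = (L : ℝ) * (J * ‖Ω‖ ^ 2) := by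
    have h1 : ∑ r ∈ range L, ((‖v r‖ ^ 2 : ℝ) : ℂ) = (L : ℂ) * (J * (‖Ω‖ ^ 2 : ℝ)) := by
      calc ∑ r ∈ range L, ((‖v r‖ ^ 2 : ℝ) : ℂ)
          = ∑ r ∈ range L, ⟪v r, (1 : H →L[ℂ] H) (v r)⟫_ℂ := by
            refine sum_congr rfl fun r _ => ?_
            rw [one_apply_eq_self, inner_self_eq_norm_sq_to_K]
            push_cast
            rfl
        _ = ∑ k ∈ range J, ∑ l ∈ range J,
              (∑ r ∈ range L, (ζ ^ r) ^ ((k : ℤ) - l)) * ⟪u k, u l⟫_ℂ := by
            rw [sum_congr rfl fun r _ => hvv r 1]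
            simp only [one_apply_eq_self, sum_mul]
            rw [sum_comm]
            exact sum_congr rfl fun k _ => sum_comm
        _ = ∑ k ∈ range J, (L : ℂ) * ⟪u k, u k⟫_ℂ := by
            refine sum_congr rfl fun k hk => ?_
            rw [sum_eq_single k]
            · rw [sum_root_zpow hζ (by simp [hL0]), if_pos (sub_self _)]
            · intro l hl hlk
              rw [mem_range] at hk hl
              rw [sum_root_zpow hζ (by omega), if_neg (by omega), zero_mul]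
            · exact fun h => absurd hk h
        _ = (L : ℂ) * (J * (‖Ω‖ ^ 2 : ℝ)) := by
            have hk : ∀ k, ⟪u k, u k⟫_ℂ = ((‖Ω‖ ^ 2 : ℝ) : ℂ) := fun k => by
              rw [inner_self_eq_norm_sq_to_K, hu]
              push_cast
              rfl
            simp only [hk, sum_const, card_range, nsmul_eq_mul]
            ring
    exact_mod_cast h1
  have hwit : ∀ r : ℕ, wit J (ζ ^ r • U) = ∑ j ∈ range J, (hcoef J j : ℂ) •
      ((ζ ^ r) ^ ((j + 1 : ℕ) : ℤ) • U ^ (j + 1) -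
        (ζ ^ r) ^ (-((j + 1 : ℕ) : ℤ)) • star U ^ (j + 1)) := fun r => by
    refine sum_congr rfl fun j _ => ?_
    rw [smul_pow, star_smul, smul_pow, zpow_natCast, zpow_neg, zpow_natCast, Complex.star_def,
      ← Complex.inv_eq_conj (hζ1 r), inv_pow]
  -- rotating kills all but one diagonal
  have hsel : ∀ (p : ℕ), p ≤ J → ∀ (f : ℕ → ℕ → ℂ),
      ∑ r ∈ range L, ∑ k ∈ range J, ∑ l ∈ range J, (ζ ^ r) ^ ((p : ℤ) + ((k : ℤ) - l)) * f k l =
        (L : ℂ) * ∑ k ∈ range (J - p), f k (k + p) := by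
    intro p hp f
    rw [sum_comm, mul_sum]
    have hk : ∀ k ∈ range J,
        ∑ r ∈ range L, ∑ l ∈ range J, (ζ ^ r) ^ ((p : ℤ) + ((k : ℤ) - l)) * f k l =
          if k + p < J then (L : ℂ) * f k (k + p) else 0 := by
      intro k hk
      rw [mem_range] at hk
      rw [sum_comm]
      simp only [← sum_mul]
      rw [sum_congr rfl (g := fun l => if l = k + p then (L : ℂ) * f k l else 0) fun l hl => by
        rw [mem_range] at hl
        rw [sum_root_zpow hζ (by omega)]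
        split_ifs with h1 h2 h2 <;> first | rfl | omega | simp]
      simp
    rw [sum_congr rfl hk, ← sum_filter]
    congr 1
    ext k
    simp only [mem_filter, mem_range]
    omega
  have key : ∑ r ∈ range L, ⟪v r, A (wit J (ζ ^ r • U)) (v r)⟫_ℂ =
      (L : ℂ) * ∑ j ∈ range J, (hcoef J j : ℂ) * (((J - (j + 1) : ℕ) : ℂ) * (Tp (j + 1) - Tm (j + 1))) := by
    simp only [hwit, map_sum, map_smul, map_sub, _root_.sum_apply, smul_apply, sub_apply, inner_sum,
      inner_smul_right, inner_sub_right]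
    rw [sum_comm, mul_sum]
    refine sum_congr rfl fun j hj => ?_
    rw [mem_range] at hj
    rw [← mul_sum, sum_sub_distrib]
    have hp : ∑ r ∈ range L, (ζ ^ r) ^ ((j + 1 : ℕ) : ℤ) * ⟪v r, A (U ^ (j + 1)) (v r)⟫_ℂ =
        (L : ℂ) * (((J - (j + 1) : ℕ) : ℂ) * Tp (j + 1)) := by
      calc _ = ∑ r ∈ range L, ∑ k ∈ range J, ∑ l ∈ range J,
            (ζ ^ r) ^ (((j + 1 : ℕ) : ℤ) + ((k : ℤ) - l)) * ⟪u k, A (U ^ (j + 1)) (u l)⟫_ℂ := by
            refine sum_congr rfl fun r _ => ?_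
            simp only [hvv, mul_sum, ← mul_assoc]
            rw [sum_congr rfl fun k _ => sum_congr rfl fun l _ => ?_]
            rw [← zpow_add₀ (fun h => by simpa [h] using hζ1 r)]
        _ = _ := by
            rw [hsel _ hj, sum_congr rfl fun k hk => hTp _ k (by rw [mem_range] at hk; omega)]
            simp
    have hm : ∑ r ∈ range L, (ζ ^ r) ^ (-((j + 1 : ℕ) : ℤ)) * ⟪v r, A (star U ^ (j + 1)) (v r)⟫_ℂ =
        (L : ℂ) * (((J - (j + 1) : ℕ) : ℂ) * Tm (j + 1)) := by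
      set g := fun k l => ⟪u k, A (star U ^ (j + 1)) (u l)⟫_ℂ
      calc _ = ∑ r ∈ range L, ∑ k ∈ range J, ∑ l ∈ range J,
            (ζ ^ r) ^ (-((j + 1 : ℕ) : ℤ) + ((k : ℤ) - l)) * g k l := by
            refine sum_congr rfl fun r _ => ?_
            simp only [hvv, mul_sum, ← mul_assoc]
            rw [sum_congr rfl fun k _ => sum_congr rfl fun l _ => ?_]
            rw [← zpow_add₀ (fun h => by simpa [h] using hζ1 r)]
        _ = ∑ k ∈ range J, ∑ l ∈ range J,
            (if (l + (j + 1) = k) then (L : ℂ) * g k l else 0) := by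
            rw [sum_comm]
            refine sum_congr rfl fun k hk => ?_
            rw [sum_comm]
            refine sum_congr rfl fun l hl => ?_
            rw [mem_range] at hk hl
            rw [← sum_mul, sum_root_zpow hζ (by omega)]
            split_ifs with h1 h2 h2 <;> first | rfl | omega | simp
        _ = ∑ l ∈ range J, if l + (j + 1) < J then (L : ℂ) * g (l + (j + 1)) l else 0 := by
            rw [sum_comm]
            exact sum_congr rfl fun l _ => by simp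
        _ = _ := by
            rw [← sum_filter, show ((range J).filter fun l => l + (j + 1) < J) = range (J - (j + 1))
              by ext l; simp only [mem_filter, mem_range]; omega]
            rw [sum_congr rfl (g := fun _ => (L : ℂ) * Tm (j + 1)) fun l hl => by
              have h := hTm (j + 1) l (by rw [mem_range] at hl; omega)
              simp only [g]
              rw [h]]
            simp [mul_left_comm]
    rw [hp, hm]
    ring
  have hbound : ‖∑ r ∈ range L, ⟪v r, A (wit J (ζ ^ r • U)) (v r)⟫_ℂ‖ ≤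
      C * Real.pi * ((L : ℝ) * (J * ‖Ω‖ ^ 2)) := by
    rw [← hnorm, mul_sum]
    refine (norm_sum_le _ _).trans (sum_le_sum fun r _ => ?_)
    refine (norm_inner_le_norm _ _).trans ?_
    have hU' : ζ ^ r • U ∈ unitary B := by
      rw [Unitary.mem_iff]
      have hc : star (ζ ^ r) * ζ ^ r = 1 := by
        rw [Complex.star_def, ← Complex.inv_eq_conj (hζ1 r),
          inv_mul_cancel₀ (fun h => by simpa [h] using hζ1 r)]
      constructor <;> rw [star_smul, smul_mul_smul_comm]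
      · rw [hc, Unitary.star_mul_self_of_mem hU, one_smul]
      · rw [mul_comm, hc, Unitary.mul_star_self_of_mem hU, one_smul]
    have h1 : ‖A (wit J (ζ ^ r • U))‖ ≤ C * Real.pi :=
      (hA _).trans (mul_le_mul_of_nonneg_left (norm_wit_le J hU') hC)
    calc ‖v r‖ * ‖A (wit J (ζ ^ r • U)) (v r)‖ ≤ ‖v r‖ * (C * Real.pi * ‖v r‖) :=
          mul_le_mul_of_nonneg_left (ContinuousLinearMap.le_of_opNorm_le _ h1 _) (norm_nonneg _)
      _ = C * Real.pi * ‖v r‖ ^ 2 := by ring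
  rw [key, norm_mul, Complex.norm_natCast] at hbound
  have hLJ : (0 : ℝ) < L * J := by positivity
  refine le_of_mul_le_mul_left ?_ hLJ
  refine le_trans (le_of_eq ?_) (hbound.trans_eq (by ring))
  rw [mul_assoc]
  congr 1
  refine Eq.trans (b := ‖(J : ℂ) * ∑ j ∈ range J,
    ((hcoef J j * (1 - (j + 1 : ℝ) / J) : ℝ) : ℂ) * (Tp (j + 1) - Tm (j + 1))‖)
    (by rw [norm_mul, Complex.norm_natCast]) ?_
  rw [mul_sum]
  congr 1
  refine sum_congr rfl fun j hj => ?_
  rw [mem_range] at hj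
  have hJc : (J : ℂ) ≠ 0 := Nat.cast_ne_zero.2 hJ.ne'
  push_cast [Nat.cast_sub hj]
  field_simp

/-- The moment bound survives averaging over unitaries. -/
theorem norm_moment_sum_avg_le {ι : Type*} (t : Finset ι) {p : ι → ℝ} (hp : ∀ i ∈ t, 0 ≤ p i)
    (hp1 : ∑ i ∈ t, p i ≤ 1) {J : ℕ} {K : ℝ} (hK : 0 ≤ K) {Tp Tm : ι → ℕ → ℂ}
    (h : ∀ i ∈ t, ‖∑ j ∈ range J, ((hcoef J j * (1 - (j + 1 : ℝ) / J) : ℝ) : ℂ) *
      (Tp i (j + 1) - Tm i (j + 1))‖ ≤ K) :
    ‖∑ j ∈ range J, ((hcoef J j * (1 - (j + 1 : ℝ) / J) : ℝ) : ℂ) *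
      (∑ i ∈ t, (p i : ℂ) * Tp i (j + 1) - ∑ i ∈ t, (p i : ℂ) * Tm i (j + 1))‖ ≤ K := by
  rw [sum_congr rfl fun j _ => show _ = ∑ i ∈ t, (p i : ℂ) *
      (((hcoef J j * (1 - (j + 1 : ℝ) / J) : ℝ) : ℂ) * (Tp i (j + 1) - Tm i (j + 1))) by
    rw [← sum_sub_distrib, mul_sum]
    exact sum_congr rfl fun i _ => by ring, sum_comm]
  calc _ ≤ ∑ i ∈ t, p i * K := (norm_sum_le _ _).trans (sum_le_sum fun i hi => by
        rw [← mul_sum, norm_mul, Complex.norm_real, Real.norm_of_nonneg (hp i hi)]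
        exact mul_le_mul_of_nonneg_left (h i hi) (hp i hi))
    _ = (∑ i ∈ t, p i) * K := (sum_mul _ _ _).symm
    _ ≤ K := mul_le_of_le_one_left hK hp1

/-- Two constant moment sequences compatible with the witness bound agree. -/
theorem eq_of_moment_bound {a b : ℂ} {K : ℝ}
    (h : ∀ J : ℕ, 0 < J → ∀ δ : ℝ, 0 < δ → ∃ Tp Tm : ℕ → ℂ,
      (∀ j, j < J → ‖Tp (j + 1) - a‖ ≤ δ ∧ ‖Tm (j + 1) - b‖ ≤ δ) ∧
      ‖∑ j ∈ range J, ((hcoef J j * (1 - (j + 1 : ℝ) / J) : ℝ) : ℂ) *
        (Tp (j + 1) - Tm (j + 1))‖ ≤ K) : a = b := by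
  by_contra hne
  have hab : 0 < ‖a - b‖ := norm_pos_iff.2 (sub_ne_zero.2 hne)
  have hdiv := Real.tendsto_sum_range_one_div_nat_succ_atTop
  obtain ⟨m, hm1, hm⟩ := ((hdiv.eventually_gt_atTop (8 * |K| / ‖a - b‖)).and
    (Filter.eventually_gt_atTop 0)).exists
  set J := 2 * m with hJ
  obtain ⟨Tp, Tm, hT, hb⟩ := h J (by omega) (‖a - b‖ / 4) (by linarith)
  set w := fun j : ℕ => hcoef J j * (1 - (j + 1 : ℝ) / J) with hw
  have hw0 : ∀ j, 0 ≤ w j := fun j => by
    simp only [hw, hcoef]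
    rw [div_mul_eq_mul_div]
    exact div_nonneg (mul_self_nonneg _) (by positivity)
  set W := ∑ j ∈ range J, w j
  have hW : (∑ i ∈ range m, (1 : ℝ) / (i + 1)) / 4 ≤ W := by
    refine le_trans ?_ (sum_le_sum_of_subset_of_nonneg
      (range_mono (show m ≤ J by omega)) fun j _ _ => hw0 j)
    rw [sum_div]
    refine sum_le_sum fun i hi => ?_
    rw [mem_range] at hi
    have h1 : (i + 1 : ℝ) / J ≤ 1 / 2 := by
      have hm0 : (0 : ℝ) < m := Nat.cast_pos.2 hm
      have him : (i : ℝ) + 1 ≤ m := by exact_mod_cast hi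
      rw [div_le_iff₀ (by rw [hJ]; push_cast; linarith), hJ]
      push_cast
      linarith
    simp only [hw, hcoef]
    rw [div_mul_eq_mul_div, div_div, mul_comm ((i : ℝ) + 1) 4, ← div_div]
    refine div_le_div_of_nonneg_right ?_ (by positivity)
    nlinarith
  have hlow : W * (‖a - b‖ / 2) ≤ K := by
    refine le_trans ?_ hb
    have e : ∑ j ∈ range J, (w j : ℂ) * (Tp (j + 1) - Tm (j + 1)) = (W : ℂ) * (a - b) +
        ∑ j ∈ range J, (w j : ℂ) * ((Tp (j + 1) - a) - (Tm (j + 1) - b)) := by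
      rw [Complex.ofReal_sum, sum_mul, ← sum_add_distrib]
      exact sum_congr rfl fun j _ => by ring
    rw [show ∑ j ∈ range J, ((hcoef J j * (1 - (j + 1 : ℝ) / J) : ℝ) : ℂ) *
      (Tp (j + 1) - Tm (j + 1)) = ∑ j ∈ range J, (w j : ℂ) * (Tp (j + 1) - Tm (j + 1)) from rfl, e]
    have herr : ‖∑ j ∈ range J, (w j : ℂ) * ((Tp (j + 1) - a) - (Tm (j + 1) - b))‖ ≤
        W * (‖a - b‖ / 2) := by
      rw [sum_mul]
      refine (norm_sum_le _ _).trans (sum_le_sum fun j hj => ?_)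
      rw [norm_mul, Complex.norm_real, Real.norm_of_nonneg (hw0 j)]
      refine mul_le_mul_of_nonneg_left ?_ (hw0 j)
      obtain ⟨h1, h2⟩ := hT j (mem_range.1 hj)
      linarith [norm_sub_le (Tp (j + 1) - a) (Tm (j + 1) - b)]
    have hmain : ‖(W : ℂ) * (a - b)‖ = W * ‖a - b‖ := by
      rw [norm_mul, Complex.norm_real, Real.norm_of_nonneg (sum_nonneg fun j _ => hw0 j)]
    have h3 := norm_sub_norm_le ((W : ℂ) * (a - b))
      (-∑ j ∈ range J, (w j : ℂ) * ((Tp (j + 1) - a) - (Tm (j + 1) - b)))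
    rw [sub_neg_eq_add, norm_neg, hmain] at h3
    linarith
  rw [div_lt_iff₀ hab] at hm1
  have h4 := mul_le_mul_of_nonneg_right hW (show (0 : ℝ) ≤ ‖a - b‖ / 2 by linarith)
  linarith [le_abs_self K]

end Vale.Agent.P082
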